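import Vale.Agent.P011.E6W.H196.Clo
import Vale.Agent.P011.E6W.H684.Tow
import Vale.Agent.P011.E6I.H68.Fk3

/-!
Block E6W: the field generated by the conjugates of a noncyclic cubic field and a quadratic field.
-/

open NumberField Polynomial

namespace Vale.Agent.P011.E6W.H196

open Vale.Agent.P011.Six.H422 (Gen EE Y2 Y3 s23 s23_L s23_t coordE tt dsc)
open Vale.Agent.P011.D4 Vale.Agent.P011.D4X Vale.Agent.P011.E6I.H68 Vale.Agent.P011.E6W.H684

/-- The discriminant of `X ^ 3 + p2 X ^ 2 + p1 X + p0`. -/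
def dsc3 {k : Type} [Field k] (p0 p1 p2 : k) : k :=
  p1 ^ 2 * p2 ^ 2 - 4 * p1 ^ 3 - 4 * p2 ^ 3 * p0 + 18 * p0 * p1 * p2 - 27 * p0 ^ 2

section quad

variable {k K : Type} [Field k] [NumberField k] [Field K] [NumberField K] [Algebra k K]

/-- A quadratic field as a quadratic algebra. -/
theorem exists_quadEquiv (h2 : Module.finrank k K = 2) {th : K} {kap : k}
    (hth : th * th = algebraMap k K kap) (hkap : ¬ IsSquare kap) :
    ∃ e : QuadraticAlgebra k kap 0 ≃+* K, (∀ t : k, e ⟨t, 0⟩ = algebraMap k K t) ∧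
      e ⟨0, 1⟩ = th := by
  have hth2 : th ^ 2 = algebraMap k K kap := by rw [pow_two, hth]
  let f : QuadraticAlgebra k kap 0 →+* K :=
    { toFun := fun z => algebraMap k K z.re + algebraMap k K z.im * th
      map_one' := by
        rw [QuadraticAlgebra.re_one, QuadraticAlgebra.im_one, map_one, map_zero, zero_mul,
          add_zero]
      map_zero' := by
        rw [QuadraticAlgebra.re_zero, QuadraticAlgebra.im_zero, map_zero, zero_mul, add_zero]
      map_add' := fun x y => by
        simp only [QuadraticAlgebra.re_add, QuadraticAlgebra.im_add, map_add, add_mul]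
        ring
      map_mul' := fun x y => by
        simp only [QuadraticAlgebra.re_mul, QuadraticAlgebra.im_mul, map_add, map_mul, zero_mul,
          add_zero]
        linear_combination (-(algebraMap k K x.im * algebraMap k K y.im)) * hth }
  have hf : ∀ z, f z = algebraMap k K z.re + algebraMap k K z.im * th := fun _ => rfl
  have hinj : Function.Injective f := by
    rw [injective_iff_map_eq_zero]
    intro z hz
    rw [hf] at hz
    have h1 : z.im = 0 := by
      by_contra h
      apply hkap
      have h3 : algebraMap k K z.im ≠ 0 := (_root_.map_ne_zero _).2 h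
      have h4 : algebraMap k K (-(z.re / z.im)) = th := by
        rw [map_neg, map_div₀, neg_eq_iff_add_eq_zero, div_add' _ _ _ h3, div_eq_zero_iff]
        left
        linear_combination hz
      refine ⟨-(z.re / z.im), (algebraMap k K).injective ?_⟩
      rw [map_mul, h4, hth]
    rw [h1, map_zero, zero_mul, add_zero] at hz
    exact QuadraticAlgebra.ext ((map_eq_zero _).1 hz) h1
  have hsur : Function.Surjective f := by
    intro z
    obtain ⟨u, v, h⟩ := Vale.Agent.P011.Arith.exists_coords h2 hkap hth2 z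
    exact ⟨⟨u, v⟩, h.symm⟩
  refine ⟨RingEquiv.ofBijective f ⟨hinj, hsur⟩, fun t => ?_, ?_⟩
  · change algebraMap k K t + algebraMap k K 0 * th = _
    rw [map_zero, zero_mul, add_zero]
  · change algebraMap k K 0 + algebraMap k K 1 * th = _
    rw [map_zero, map_one, one_mul, zero_add]

end quad

/-- The plain data: maps of fields without algebra structures. -/
structure MD {k K L E M : Type} [Field k] [Field K] [Field L] [Field E] [Field M] [Algebra k K]
    [Algebra k L] [Algebra K E] (s : K ≃ₐ[k] K) (kap : k) (y : L) (p q : k)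
    (jK : K →+* M) (jL : L →+* M) (jE : E →+* M) (ρ ι σ : M ≃+* M) (z : Fin 3 → M) : Prop where
  h3 : Module.finrank K E = 3
  jEK : ∀ t : K, jE (algebraMap K E t) = jK t
  jKk : ∀ t : k, jK (algebraMap k K t) = jL (algebraMap k L t)
  ρK : ∀ t, ρ (jK t) = jK t
  ιK : ∀ t, ι (jK t) = jK t
  σK : ∀ t, σ (jK t) = jK (s t)
  σL : ∀ t, σ (jL t) = jL t
  ιL : ∀ t, ι (jL t) = ρ (ρ (jL t))
  ρL : ρ (jL y) ≠ jL y
  ρ3 : ∀ x, ρ (ρ (ρ x)) = x
  σ2 : ∀ x, σ (σ x) = x
  ι2 : ∀ x, ι (ι x) = x
  comm : ∀ x, σ (ρ x) = ρ (σ x)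
  σι : ∀ x, σ (ι x) = ι (σ x)
  ιρ : ∀ x, ι (ρ x) = ρ (ρ (ι x))
  fixL : ∀ x : M, σ x = x → ι x = ρ (ρ x) → ∃ t : L, jL t = x
  fixk : ∀ x : M, ρ x = x → σ x = x → ι x = x → ∃ t : k, jL (algebraMap k L t) = x
  fixE : ∀ m : M, ρ (ι m) = m → ∃ e : E, jE e = m
  jEL : ∃ e : E, jE e = jL y
  iE : ∀ e : E, ρ (ι (jE e)) = jE e
  fixK : ∀ m : M, ρ m = m → ι m = m → ∃ t : K, jK t = m
  z1 : z 1 = jL y
  r0 : ρ (z 0) = z 2
  r1 : ρ (z 1) = z 0
  i0 : ι (z 0) = z 0
  n01 : z 0 ≠ z 1
  n02 : z 0 ≠ z 2
  n12 : z 1 ≠ z 2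
  s1 : z 0 + z 1 + z 2 = 0
  s2 : z 0 * z 1 + z 1 * z 2 + z 2 * z 0 = jL (algebraMap k L p)
  s3 : z 0 * z 1 * z 2 = -jL (algebraMap k L q)
  nsq : ∀ a : k, ¬ IsSquare a → ¬ IsSquare (a * kap) → ¬ IsSquare (a * dsc p q) →
    ¬ IsSquare (a * kap * dsc p q) → ∀ w : M, w * w ≠ jL (algebraMap k L a)

section nsq

variable {k L : Type} [Field k] [NumberField k] [Field L] [Algebra k L]

theorem nsq_aux {y : L} {p q : k} (hG : Gen y p q)
    [Fact (∀ r : L, r ^ 2 ≠ algebraMap k L (dsc p q) + 0 * r)] {kap a : k}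
    {u v : EE L (algebraMap k L (dsc p q))} (h1 : ¬ IsSquare a) (h4 : ¬ IsSquare (a * kap))
    (h5 : ¬ IsSquare (a * dsc p q)) (h6 : ¬ IsSquare (a * kap * dsc p q))
    (h7 : u * u + algebraMap k _ kap * v * v = algebraMap k (EE L (algebraMap k L (dsc p q))) a)
    (h8 : u * v + v * u + 0 * v * v = 0) : False := by
  have c0 : CharZero L := hG.charZero
  have n2 : (2 : EE L (algebraMap k L (dsc p q))) ≠ 0 := two_ne_zero
  have h9 : u * v = 0 := by
    have h10 : (2 : EE L (algebraMap k L (dsc p q))) * (u * v) = 0 := by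
      linear_combination h8
    exact (mul_eq_zero.1 h10).resolve_left n2
  rcases mul_eq_zero.1 h9 with h | h
  · rcases sq_closure hG (x := a * kap) ⟨algebraMap k _ kap * v, by
      rw [map_mul, ← h7, h]
      ring⟩ with h10 | h10
    · exact h4 h10
    · exact h6 h10
  · rcases sq_closure hG (x := a) ⟨u, by rw [← h7, h]; ring⟩ with h10 | h10
    · exact h1 h10
    · exact h5 h10

theorem sum_aux {y : L} {p q : k} (hG : Gen y p q)
    [Fact (∀ r : L, r ^ 2 ≠ algebraMap k L (dsc p q) + 0 * r)] {M : Type} [Field M]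
    (f : EE L (algebraMap k L (dsc p q)) →+* M) :
    f (Y2 y p q) + f (algebraMap L _ y) + f (Y3 y p q) = 0 ∧
    f (Y2 y p q) * f (algebraMap L _ y) + f (algebraMap L _ y) * f (Y3 y p q) +
      f (Y3 y p q) * f (Y2 y p q) = f (algebraMap k _ p) ∧
    f (Y2 y p q) * f (algebraMap L _ y) * f (Y3 y p q) = -f (algebraMap k _ q) := by
  refine ⟨?_, ?_, ?_⟩
  · rw [← map_add, ← map_add, ← map_zero f]
    congr 1
    linear_combination hG.sum
  · rw [← map_mul, ← map_mul, ← map_mul, ← map_add, ← map_add]
    congr 1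
    linear_combination root_e1 hG
  · rw [← map_mul, ← map_mul, ← map_neg]
    congr 1
    linear_combination root_e0 hG

end nsq

theorem exists_MD {k K L : Type} [Field k] [NumberField k] [Field K] [NumberField K]
    [Algebra k K] [Field L] [NumberField L] [Algebra k L]
    {s : K ≃ₐ[k] K} {th : K} {kap : k} (h2 : Module.finrank k K = 2)
    (hth : th * th = algebraMap k K kap) (hs : s th = -th) (hkap : ¬ IsSquare kap)
    {y : L} {p q : k} (hG : Gen y p q) (hd : ¬ IsSquare (dsc p q))
    (hdk : ¬ IsSquare (dsc p q * kap)) :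
    ∃ (E M : Type) (_ : Field E) (_ : Field M) (_ : NumberField E) (_ : NumberField M)
      (_ : Algebra K E) (jK : K →+* M) (jL : L →+* M) (jE : E →+* M) (ρ ι σ : M ≃+* M)
      (z : Fin 3 → M), MD (E := E) s kap y p q jK jL jE ρ ι σ z := by
  obtain ⟨e, he1, he2⟩ := exists_quadEquiv h2 hth hkap
  have f1 : Fact (∀ r : L, r ^ 2 ≠ algebraMap k L (dsc p q) + 0 * r) := ⟨fun r hr => hd
    (sq_of_cubic' hG.rank ⟨r, by linear_combination -hr⟩)⟩
  have f3 : Fact (∀ r : L, r ^ 2 ≠ algebraMap k L kap + 0 * r) := ⟨fun r hr => hkap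
    (sq_of_cubic' hG.rank ⟨r, by linear_combination -hr⟩)⟩
  have f2 : Fact (∀ r : EE L (algebraMap k L (dsc p q)),
      r ^ 2 ≠ algebraMap k (EE L (algebraMap k L (dsc p q))) kap + 0 * r) := ⟨fun r hr => by
    rcases sq_closure hG (x := kap) ⟨r, by linear_combination -hr⟩ with h | h
    · exact hkap h
    · exact hdk (by rw [mul_comm]; exact h)⟩
  have nE0 : NumberField (EE L (algebraMap k L (dsc p q))) := NumberField.of_module_finite L _
  have nM : NumberField (QuadraticAlgebra (EE L (algebraMap k L (dsc p q)))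
      (algebraMap k (EE L (algebraMap k L (dsc p q))) kap) 0) :=
    NumberField.of_module_finite (EE L (algebraMap k L (dsc p q))) _
  have nE : NumberField (QuadraticAlgebra L (algebraMap k L kap) 0) :=
    NumberField.of_module_finite L _
  let jKE : K →+* QuadraticAlgebra L (algebraMap k L kap) 0 :=
    (qaMap (algebraMap k L) rfl).comp (e.symm : K →+* QuadraticAlgebra k kap 0)
  let jKM : K →+* QuadraticAlgebra (EE L (algebraMap k L (dsc p q)))
      (algebraMap k (EE L (algebraMap k L (dsc p q))) kap) 0 :=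
    (qaMap (algebraMap k (EE L (algebraMap k L (dsc p q)))) rfl).comp
      (e.symm : K →+* QuadraticAlgebra k kap 0)
  let jEM : QuadraticAlgebra L (algebraMap k L kap) 0 →+*
      QuadraticAlgebra (EE L (algebraMap k L (dsc p q)))
      (algebraMap k (EE L (algebraMap k L (dsc p q))) kap) 0 :=
    qaMap (algebraMap L (EE L (algebraMap k L (dsc p q)))) rfl
  have hes : ∀ t : k, e.symm (algebraMap k K t) = ⟨t, 0⟩ := fun t => by
    rw [← he1, e.symm_apply_apply]
  have hjKM : ∀ t : K, jKM t = ⟨algebraMap k _ (e.symm t).re, algebraMap k _ (e.symm t).im⟩ :=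
    fun _ => rfl
  have hjKE : ∀ t : K, jKE t = ⟨algebraMap k _ (e.symm t).re, algebraMap k _ (e.symm t).im⟩ :=
    fun _ => rfl
  have hse : ∀ t : K, e.symm (s t) = ⟨(e.symm t).re, -(e.symm t).im⟩ := by
    intro t
    obtain ⟨w, rfl⟩ := e.surjective t
    apply e.injective
    rw [e.apply_symm_apply, e.symm_apply_apply]
    have h1 : ∀ w : QuadraticAlgebra k kap 0, e w = algebraMap k K w.re + algebraMap k K w.im * th := by
      intro w
      rw [← he1, ← he1, ← he2, ← map_mul, ← map_add]
      congr 1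
      ext <;> simp
    rw [h1, h1, map_add, map_mul, s.commutes, s.commutes, hs, map_neg]
    ring
  let iKE : Algebra K (QuadraticAlgebra L (algebraMap k L kap) 0) := jKE.toAlgebra
  refine ⟨QuadraticAlgebra L (algebraMap k L kap) 0, QuadraticAlgebra
      (EE L (algebraMap k L (dsc p q))) (algebraMap k (EE L (algebraMap k L (dsc p q))) kap) 0,
    inferInstance, inferInstance, nE, nM, iKE, jKM, algebraMap L _, jEM,
    (qaEquiv (rot hG) kap).toRingEquiv, (qaEquiv (tra hG) kap).toRingEquiv,
    (qaConj k kap).toRingEquiv, ![⟨Y2 y p q, 0⟩, ⟨algebraMap L _ y, 0⟩, ⟨Y3 y p q, 0⟩], ?_⟩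
  have c0 : CharZero L := hG.charZero
  have hrt : ∀ t : L, tra hG (algebraMap L (EE L (algebraMap k L (dsc p q))) t) =
      rot hG (rot hG (algebraMap L _ t)) := by
    intro t
    have h1 := rot_tra hG (algebraMap L (EE L (algebraMap k L (dsc p q))) t)
    rw [s23_L] at h1
    conv_rhs => rw [← h1]
    rw [rot3]
  have fixL0 : ∀ u : EE L (algebraMap k L (dsc p q)), tra hG u = rot hG (rot hG u) →
      ∃ t : L, algebraMap L _ t = u := by
    intro u hu
    apply fix23 (k := k) (p := p) (q := q)
    rw [← rot_tra hG, hu, rot3]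
  have n2 : (2 : EE L (algebraMap k L (dsc p q))) ≠ 0 := two_ne_zero
  have im0 : ∀ u : EE L (algebraMap k L (dsc p q)), -u = u → u = 0 := by
    intro u hu
    have h1 : (2 : EE L (algebraMap k L (dsc p q))) * u = 0 := by linear_combination -hu
    exact (mul_eq_zero.1 h1).resolve_left n2
  exact
    { h3 := by
        have ht : IsScalarTower k K (QuadraticAlgebra L (algebraMap k L kap) 0) :=
          IsScalarTower.of_algebraMap_eq fun t => by
            change (⟨algebraMap k L t, 0⟩ : QuadraticAlgebra L (algebraMap k L kap) 0) =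
              jKE (algebraMap k K t)
            rw [hjKE, hes, map_zero]
        have h4 := Module.finrank_mul_finrank k K (QuadraticAlgebra L (algebraMap k L kap) 0)
        have h5 := Module.finrank_mul_finrank k L (QuadraticAlgebra L (algebraMap k L kap) 0)
        rw [QuadraticAlgebra.finrank_eq_two, hG.rank] at h5
        rw [h2] at h4
        omega
      jEK := fun t => rfl
      jKk := fun t => by
        rw [hjKM, hes, map_zero]
        rfl
      ρK := fun t => by
        change (⟨rot hG (algebraMap k _ (e.symm t).re), rot hG (algebraMap k _ (e.symm t).im)⟩ :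
          QuadraticAlgebra (EE L (algebraMap k L (dsc p q))) _ 0) = _
        rw [AlgEquiv.commutes, AlgEquiv.commutes, hjKM]
      ιK := fun t => by
        change (⟨tra hG (algebraMap k _ (e.symm t).re), tra hG (algebraMap k _ (e.symm t).im)⟩ :
          QuadraticAlgebra (EE L (algebraMap k L (dsc p q))) _ 0) = _
        rw [AlgEquiv.commutes, AlgEquiv.commutes, hjKM]
      σK := fun t => by
        change (⟨algebraMap k _ (e.symm t).re, -algebraMap k _ (e.symm t).im⟩ :
          QuadraticAlgebra (EE L (algebraMap k L (dsc p q))) _ 0) = _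
        rw [hjKM, hse, map_neg]
      σL := fun t => QuadraticAlgebra.ext rfl neg_zero
      ιL := fun t => QuadraticAlgebra.ext (hrt t) (by
        change tra hG 0 = rot hG (rot hG 0)
        rw [map_zero, map_zero, map_zero])
      ρL := fun h => by
        have h1 : rot hG (algebraMap L _ y) = algebraMap L _ y := congrArg QuadraticAlgebra.re h
        rw [rot_apply, rot_y] at h1
        exact y_ne_Y2 hG h1.symm
      ρ3 := fun x => QuadraticAlgebra.ext (rot3 hG _) (rot3 hG _)
      σ2 := fun x => QuadraticAlgebra.ext rfl (neg_neg _)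
      ι2 := fun x => QuadraticAlgebra.ext (tra_tra hG _) (tra_tra hG _)
      comm := fun x => QuadraticAlgebra.ext rfl (map_neg (rot hG) _).symm
      σι := fun x => QuadraticAlgebra.ext rfl (map_neg (tra hG) _).symm
      ιρ := fun x => QuadraticAlgebra.ext (tra_rot hG _) (tra_rot hG _)
      fixL := fun x h1 h4 => by
        have h5 : -x.im = x.im := congrArg QuadraticAlgebra.im h1
        obtain ⟨t, ht⟩ := fixL0 x.re (congrArg QuadraticAlgebra.re h4)
        exact ⟨t, QuadraticAlgebra.ext ht (im0 _ h5).symm⟩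
      fixk := fun x h1 h4 h5 => by
        have h6 : -x.im = x.im := congrArg QuadraticAlgebra.im h4
        obtain ⟨t, ht⟩ := fix_all hG (x := x.re) (congrArg QuadraticAlgebra.re h1)
          (congrArg QuadraticAlgebra.re h5)
        exact ⟨t, QuadraticAlgebra.ext ht (im0 _ h6).symm⟩
      fixE := fun m hm => by
        have h1 : rot hG (tra hG m.re) = m.re := congrArg QuadraticAlgebra.re hm
        have h4 : rot hG (tra hG m.im) = m.im := congrArg QuadraticAlgebra.im hm
        rw [rot_tra] at h1 h4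
        obtain ⟨t, ht⟩ := fix23 (k := k) (p := p) (q := q) h1
        obtain ⟨u, hu⟩ := fix23 (k := k) (p := p) (q := q) h4
        exact ⟨⟨t, u⟩, QuadraticAlgebra.ext ht hu⟩
      jEL := ⟨⟨y, 0⟩, QuadraticAlgebra.ext rfl (map_zero _)⟩
      iE := fun t => by
        refine QuadraticAlgebra.ext ?_ ?_
        · change rot hG (tra hG (algebraMap L _ t.re)) = algebraMap L _ t.re
          rw [rot_tra, s23_L]
        · change rot hG (tra hG (algebraMap L _ t.im)) = algebraMap L _ t.im
          rw [rot_tra, s23_L]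
      fixK := fun m h1 h4 => by
        obtain ⟨t, ht⟩ := fix_all hG (x := m.re) (congrArg QuadraticAlgebra.re h1)
          (congrArg QuadraticAlgebra.re h4)
        obtain ⟨u, hu⟩ := fix_all hG (x := m.im) (congrArg QuadraticAlgebra.im h1)
          (congrArg QuadraticAlgebra.im h4)
        refine ⟨e ⟨t, u⟩, ?_⟩
        rw [hjKM, e.symm_apply_apply]
        exact QuadraticAlgebra.ext ht hu
      z1 := rfl
      r0 := QuadraticAlgebra.ext (by
        change rot hG (Y2 y p q) = Y3 y p q
        rw [rot_apply, rot_Y2]) (map_zero (rot hG))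
      r1 := QuadraticAlgebra.ext (by
        change rot hG (algebraMap L _ y) = Y2 y p q
        rw [rot_apply, rot_y]) (map_zero (rot hG))
      i0 := QuadraticAlgebra.ext (by
        change tra hG (Y2 y p q) = Y2 y p q
        rw [tra_apply, hG.s13_Y2]) (map_zero (tra hG))
      n01 := fun h => y_ne_Y2 hG (congrArg QuadraticAlgebra.re h).symm
      n02 := fun h => Y_ne hG (congrArg QuadraticAlgebra.re h)
      n12 := fun h => y_ne_Y3 hG (congrArg QuadraticAlgebra.re h)
      s1 := (sum_aux hG (algebraMap (EE L (algebraMap k L (dsc p q))) (QuadraticAlgebra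
        (EE L (algebraMap k L (dsc p q)))
        (algebraMap k (EE L (algebraMap k L (dsc p q))) kap) 0))).1
      s2 := (sum_aux hG (algebraMap (EE L (algebraMap k L (dsc p q))) (QuadraticAlgebra
        (EE L (algebraMap k L (dsc p q)))
        (algebraMap k (EE L (algebraMap k L (dsc p q))) kap) 0))).2.1
      s3 := (sum_aux hG (algebraMap (EE L (algebraMap k L (dsc p q))) (QuadraticAlgebra
        (EE L (algebraMap k L (dsc p q)))
        (algebraMap k (EE L (algebraMap k L (dsc p q))) kap) 0))).2.2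
      nsq := fun a h1 h4 h5 h6 w hw => nsq_aux hG (kap := kap) (u := w.re) (v := w.im) h1 h4 h5 h6
        ((QuadraticAlgebra.re_mul w w).symm.trans (congrArg QuadraticAlgebra.re hw))
        ((QuadraticAlgebra.im_mul w w).symm.trans (congrArg QuadraticAlgebra.im hw)) }

end Vale.Agent.P011.E6W.H196
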