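import Vale.Agent.P011.Six.H422.Gal2

/-!
Block E6W: the Galois closure of a noncyclic cubic field, with its rotation.
-/

open Module

namespace Vale.Agent.P011.E6W.H196

open Vale.Agent.P011.Six.H422

section clo

variable {k L : Type} [Field k] [CharZero k] [Field L] [Algebra k L] {y : L} {p q : k}

omit [CharZero k] in
/-- Squares in a cubic extension. -/
theorem sq_of_cubic' (h3 : Module.finrank k L = 3) {x : k} (h : IsSquare (algebraMap k L x)) :
    IsSquare x := by
  obtain ⟨s, hs⟩ := h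
  by_cases hx : x = 0
  · exact ⟨0, by rw [hx, mul_zero]⟩
  have h1 := congrArg (Algebra.norm k) hs
  rw [Algebra.norm_algebraMap, h3, map_mul] at h1
  refine ⟨Algebra.norm k s / x, ?_⟩
  field_simp
  linear_combination h1

set_option linter.unusedSectionVars false

variable [Fact (∀ r : L, r ^ 2 ≠ algebraMap k L (dsc p q) + 0 * r)]

theorem rot_y (h : Gen y p q) : s23 (L := L) k p q (h.s13 (algebraMap L (EE L (algebraMap k L (dsc p q))) y)) = Y2 y p q := by
  rw [h.s13_y, h.s23_Y3]

theorem rot_Y2 (h : Gen y p q) : s23 (L := L) k p q (h.s13 (Y2 y p q : EE L (algebraMap k L (dsc p q)))) = Y3 y p q := by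
  rw [h.s13_Y2, h.s23_Y2]

theorem rot_Y3 (h : Gen y p q) : s23 (L := L) k p q (h.s13 (Y3 y p q : EE L (algebraMap k L (dsc p q)))) = algebraMap L (EE L (algebraMap k L (dsc p q))) y := by
  rw [h.s13_Y3, s23_L]

/-- The rotation. -/
noncomputable def rot (h : Gen y p q) : (EE L (algebraMap k L (dsc p q))) ≃ₐ[k] (EE L (algebraMap k L (dsc p q))) :=
  AlgEquiv.ofAlgHom ((s23 (L := L) k p q).comp h.s13) (h.s13.comp (s23 (L := L) k p q))
    (AlgHom.ext fun x => by
      change s23 (L := L) k p q (h.s13 (h.s13 (s23 (L := L) k p q x))) = x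
      rw [h.r13, h.r23])
    (AlgHom.ext fun x => by
      change h.s13 (s23 (L := L) k p q (s23 (L := L) k p q (h.s13 x))) = x
      rw [h.r23, h.r13])

theorem rot_apply (h : Gen y p q) (x : EE L (algebraMap k L (dsc p q))) : rot h x = s23 (L := L) k p q (h.s13 x) := rfl

/-- The transposition. -/
noncomputable def tra (h : Gen y p q) : (EE L (algebraMap k L (dsc p q))) ≃ₐ[k] (EE L (algebraMap k L (dsc p q))) :=
  AlgEquiv.ofAlgHom h.s13 h.s13 (AlgHom.ext fun x => h.r13 x) (AlgHom.ext fun x => h.r13 x)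

theorem tra_apply (h : Gen y p q) (x : EE L (algebraMap k L (dsc p q))) : tra h x = h.s13 x := rfl

theorem tra_tra (h : Gen y p q) (x : EE L (algebraMap k L (dsc p q))) : tra h (tra h x) = x := h.r13 x

theorem rot_rot (h : Gen y p q) (x : EE L (algebraMap k L (dsc p q))) : rot h (rot h x) = h.s12 (h.s13 x) := by
  rw [rot_apply, rot_apply, h.r13_23, h.r13, h.r23_12]

theorem rot3 (h : Gen y p q) (x : EE L (algebraMap k L (dsc p q))) : rot h (rot h (rot h x)) = x := by
  rw [rot_rot, rot_apply, h.r13_23, h.r13, h.r12]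

theorem tra_rot (h : Gen y p q) (x : EE L (algebraMap k L (dsc p q))) : tra h (rot h x) = rot h (rot h (tra h x)) := by
  rw [rot_rot, tra_apply, tra_apply, rot_apply, h.r13_23]

theorem rot_tra (h : Gen y p q) (x : EE L (algebraMap k L (dsc p q))) : rot h (tra h x) = s23 (L := L) k p q x := by
  rw [tra_apply, rot_apply, h.r13]

theorem tra_rot_tra (h : Gen y p q) (x : EE L (algebraMap k L (dsc p q))) : tra h (rot h (tra h x)) = rot h (rot h x) := by
  rw [tra_rot, tra_tra]

theorem fix23 {x : EE L (algebraMap k L (dsc p q))} (hx : s23 (L := L) k p q x = x) : ∃ t : L, algebraMap L (EE L (algebraMap k L (dsc p q))) t = x := by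
  have h1 : s23 (L := L) k p q x = ⟨x.re, -x.im⟩ := by
    conv_lhs => rw [coordE (k := k) x]
    rw [map_add, map_mul, s23_L, s23_L, s23_t, mul_neg, ← sub_eq_add_neg]
    ext
    · rw [QuadraticAlgebra.re_sub, QuadraticAlgebra.re_mul]
      change x.re - (x.im * 0 + algebraMap k L (dsc p q) * 0 * 1) = x.re
      ring
    · rw [QuadraticAlgebra.im_sub, QuadraticAlgebra.im_mul]
      change 0 - (x.im * 1 + 0 * 0 + 0 * 0 * 1) = -x.im
      ring
  have h2 : -x.im = x.im := by
    have h3 := congrArg QuadraticAlgebra.im hx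
    rwa [h1] at h3
  have : CharZero L := charZero_of_injective_algebraMap (algebraMap k L).injective
  have h4 : x.im = 0 := by
    have h5 : (2 : L) * x.im = 0 := by linear_combination -h2
    exact (mul_eq_zero.1 h5).resolve_left two_ne_zero
  exact ⟨x.re, QuadraticAlgebra.ext rfl h4.symm⟩

theorem Y_ne (h : Gen y p q) : (Y2 y p q : EE L (algebraMap k L (dsc p q))) ≠ Y3 y p q := by
  intro h1
  have := h.charZero
  have h2 := congrArg QuadraticAlgebra.im h1
  have h3 : (2 * (3 * y ^ 2 + algebraMap k L p))⁻¹ ≠ 0 :=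
    inv_ne_zero (mul_ne_zero two_ne_zero h.deriv_ne)
  have h4 : (tau y p q : EE L (algebraMap k L (dsc p q))).im = (2 * (3 * y ^ 2 + algebraMap k L p))⁻¹ := by
    rw [tau, QuadraticAlgebra.im_mul]
    change (2 * (3 * y ^ 2 + algebraMap k L p))⁻¹ * 1 + 0 * 0 + 0 * 0 * 1 = _
    ring
  rw [Y2, Y3, QuadraticAlgebra.im_add, QuadraticAlgebra.im_sub, h4] at h2
  apply h3
  have h5 : (2 : L) * (2 * (3 * y ^ 2 + algebraMap k L p))⁻¹ = 0 := by linear_combination h2
  exact (mul_eq_zero.1 h5).resolve_left two_ne_zero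

theorem y_ne_Y2 (h : Gen y p q) : algebraMap L (EE L (algebraMap k L (dsc p q))) y ≠ Y2 y p q := by
  intro h1
  have h2 := congrArg (s23 (L := L) k p q) h1
  rw [s23_L, h.s23_Y2] at h2
  exact Y_ne h (h1.symm.trans h2)

theorem y_ne_Y3 (h : Gen y p q) : algebraMap L (EE L (algebraMap k L (dsc p q))) y ≠ Y3 y p q := by
  intro h1
  have h2 := congrArg (s23 (L := L) k p q) h1
  rw [s23_L, h.s23_Y3] at h2
  exact Y_ne h (h2.symm.trans h1)

theorem fix_all (h : Gen y p q) {x : EE L (algebraMap k L (dsc p q))} (h1 : rot h x = x) (h2 : tra h x = x) :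
    ∃ t : k, algebraMap k (EE L (algebraMap k L (dsc p q))) t = x := by
  have h4 : s23 (L := L) k p q x = x := by rw [← rot_tra h, h2, h1]
  obtain ⟨t, rfl⟩ := fix23 h4
  rw [tra_apply, h.s13_L] at h2
  have hs : IsSimpleOrder (Subalgebra k L) :=
    Subalgebra.isSimpleOrder_of_finrank_prime k L (by rw [h.rank]; exact Nat.prime_three)
  obtain ⟨S, hS⟩ : ∃ S : Subalgebra k L,
    S = AlgHom.equalizer (h.lift (Y3 y p q : EE L (algebraMap k L (dsc p q))) h.Y3_eq) (IsScalarTower.toAlgHom k L (EE L (algebraMap k L (dsc p q)))) := ⟨_, rfl⟩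
  have ht : t ∈ S := by
    rw [hS]
    exact h2
  rcases hs.eq_bot_or_eq_top S with h5 | h5
  · rw [h5] at ht
    obtain ⟨u, hu⟩ := Algebra.mem_bot.1 ht
    exact ⟨u, by rw [← hu]; rfl⟩
  · exfalso
    have h6 : y ∈ S := by rw [h5]; exact Algebra.mem_top
    rw [hS] at h6
    have h7 : h.lift (Y3 y p q : EE L (algebraMap k L (dsc p q))) h.Y3_eq y = algebraMap L (EE L (algebraMap k L (dsc p q))) y := h6
    rw [h.lift_gen] at h7
    exact y_ne_Y3 h h7.symm

/-- The elements of the base field which become squares in the closure. -/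
theorem sq_closure (h : Gen y p q) {x : k} (hx : IsSquare (algebraMap k (EE L (algebraMap k L (dsc p q))) x)) :
    IsSquare x ∨ IsSquare (x * dsc p q) := by
  obtain ⟨z, hz⟩ := hx
  have : CharZero L := h.charZero
  have h1 : algebraMap k L x = z.re * z.re + algebraMap k L (dsc p q) * (z.im * z.im) := by
    have := congrArg QuadraticAlgebra.re hz
    rw [QuadraticAlgebra.re_mul] at this
    rw [← mul_assoc]
    exact this
  have h2 : z.re * z.im = 0 := by
    have h3 := congrArg QuadraticAlgebra.im hz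
    rw [QuadraticAlgebra.im_mul] at h3
    have h4 : (0 : L) = z.re * z.im + z.im * z.re + 0 * z.im * z.im := h3
    have h5 : (2 : L) * (z.re * z.im) = 0 := by linear_combination -h4
    exact (mul_eq_zero.1 h5).resolve_left two_ne_zero
  rcases mul_eq_zero.1 h2 with h3 | h3
  · right
    apply sq_of_cubic' h.rank
    refine ⟨algebraMap k L (dsc p q) * z.im, ?_⟩
    rw [map_mul, h1, h3]
    ring
  · left
    apply sq_of_cubic' h.rank
    refine ⟨z.re, ?_⟩
    rw [h1, h3]
    ring

/-- The symmetric functions of the roots. -/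
theorem root_e1 (h : Gen y p q) : algebraMap L (EE L (algebraMap k L (dsc p q))) y * Y2 y p q + Y2 y p q * Y3 y p q +
    Y3 y p q * algebraMap L (EE L (algebraMap k L (dsc p q))) y = algebraMap k (EE L (algebraMap k L (dsc p q))) p := by
  have h1 := h.tau_sq
  have h2 := h.two_Y
  apply mul_left_cancel₀ (four_ne (k := k) (L := L) (p := p) (q := q))
  rw [← h2] at h1 ⊢
  rw [Y2, Y3]
  linear_combination -h1

theorem root_e0 (h : Gen y p q) : algebraMap L (EE L (algebraMap k L (dsc p q))) y * Y2 y p q * Y3 y p q = -algebraMap k (EE L (algebraMap k L (dsc p q))) q := by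
  have h1 := h.tau_sq
  have h2 := h.two_Y
  have h3 := h.eqE
  apply mul_left_cancel₀ (four_ne (k := k) (L := L) (p := p) (q := q))
  rw [← h2] at h1 h3 ⊢
  rw [Y2, Y3]
  obtain ⟨z, hz⟩ : ∃ z, z = algebraMap L (EE L (algebraMap k L (dsc p q))) (y / 2) := ⟨_, rfl⟩
  obtain ⟨t, ht⟩ : ∃ t, t = (tau y p q : EE L (algebraMap k L (dsc p q))) := ⟨_, rfl⟩
  rw [← hz, ← ht] at h1
  rw [← hz] at h3
  rw [← hz, ← ht]
  linear_combination -2 * z * h1 + 4 * h3

end clo

end Vale.Agent.P011.E6W.H196
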