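import Vale.Agent.P011.E6W.H196.ExM

/-!
Block E6W: the field generated by the conjugates of a noncyclic cubic field and a quadratic field,
final form.
-/

open NumberField Polynomial

namespace Vale.Agent.P011.E6W.H196

open Vale.Agent.P011.Six.H422 (Gen dsc)
open Vale.Agent.P011.D4 Vale.Agent.P011.D4X Vale.Agent.P011.E6I.H68 Vale.Agent.P011.E6W.H684

theorem exists_M_aux {k K L : Type} [Field k] [NumberField k] [Field K] [NumberField K]
    [Algebra k K] [Field L] [NumberField L] [Algebra k L]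
    {s : K ≃ₐ[k] K} {th : K} {kap : k} (h2 : Module.finrank k K = 2)
    (hth : th * th = algebraMap k K kap) (hs : s th = -th) (hkap : ¬ IsSquare kap)
    {y : L} {p q p0 p1 p2 : k} (hG : Gen (y + algebraMap k L (p2 / 3)) p q)
    (hp : p = p1 - p2 ^ 2 / 3) (hq : q = p0 - p1 * p2 / 3 + 2 * p2 ^ 3 / 27)
    (hd : ¬ IsSquare (dsc3 p0 p1 p2)) (hdk : ¬ IsSquare (dsc3 p0 p1 p2 * kap)) :
    ∃ (E M : Type) (_ : Field E) (_ : Field M) (_ : NumberField E)
      (_ : NumberField M) (_ : Algebra L M) (_ : Algebra K E) (_ : Algebra E M)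
      (_ : Algebra K M) (_ : IsScalarTower K E M),
      letI : Algebra k M := Algebra.compHom M (algebraMap k K)
      ∃ (_ : IsScalarTower k K M) (_ : IsScalarTower k L M) (ρ ι : M ≃ₐ[K] M) (σ : M ≃ₐ[k] M)
        (x : Fin 3 → M) (y : L),
        MH (L := L) (ρ.restrictScalars k) σ (ι.restrictScalars k) ∧ SetU K E M ρ {ι} ∧
        Cjg ρ {ι} (algebraMap k K p0) (algebraMap k K p1) (algebraMap k K p2) x ∧
        x 1 = algebraMap L M y ∧ (∀ i, σ (x i) = x i) ∧
        (∀ t : K, σ (algebraMap K M t) = algebraMap K M (s t)) ∧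
        (∀ a : k, ¬ IsSquare a → ¬ IsSquare (a * kap) → ¬ IsSquare (a * dsc3 p0 p1 p2) →
          ¬ IsSquare (a * kap * dsc3 p0 p1 p2) → ∀ z : M, z * z ≠ algebraMap k M a) := by
  have hdsc : dsc p q = dsc3 p0 p1 p2 := by
    rw [dsc, dsc3, hp, hq]
    ring
  obtain ⟨E, M, fE, fM, nE, nM, aKE, jK, jL, jE, ρ, ι, σ, z, D⟩ :=
    exists_MD h2 hth hs hkap hG (hdsc ▸ hd) (hdsc ▸ hdk)
  let aLM : Algebra L M := jL.toAlgebra
  let aEM : Algebra E M := jE.toAlgebra
  let aKM : Algebra K M := jK.toAlgebra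
  have tKEM : IsScalarTower K E M := IsScalarTower.of_algebraMap_eq fun t => (D.jEK t).symm
  let akM : Algebra k M := Algebra.compHom M (algebraMap k K)
  have tkKM : IsScalarTower k K M := IsScalarTower.of_algebraMap_eq fun t => rfl
  have tkLM : IsScalarTower k L M := IsScalarTower.of_algebraMap_eq fun t => D.jKk t
  have hkM : ∀ t : k, algebraMap k M t = jL (algebraMap k L t) := fun t => D.jKk t
  let ρ' : M ≃ₐ[K] M := AlgEquiv.ofRingEquiv (f := ρ) D.ρK
  let ι' : M ≃ₐ[K] M := AlgEquiv.ofRingEquiv (f := ι) D.ιK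
  let σ' : M ≃ₐ[k] M := AlgEquiv.ofRingEquiv (f := σ) fun t => by
    change σ (jK (algebraMap k K t)) = jK (algebraMap k K t)
    rw [D.σK, s.commutes]
  have hρL : ρ (jL y) ≠ jL y := by
    intro h
    apply D.ρL
    rw [map_add, map_add, h, ← D.jKk, D.ρK]
  obtain ⟨c, hc⟩ : ∃ c : M, c = jL (algebraMap k L (p2 / 3)) := ⟨_, rfl⟩
  have hρc : ρ c = c := by rw [hc, ← D.jKk, D.ρK]
  have hιc : ι c = c := by rw [hc, ← D.jKk, D.ιK]
  have hσc : σ c = c := by rw [hc, D.σL]
  have hz1 : z 1 - c = jL y := by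
    rw [D.z1, map_add, hc, add_sub_cancel_right]
  have hr2 : ρ (z 2) = z 1 := by rw [← D.r0, ← D.r1, D.ρ3]
  have hi1 : ι (z 1) = z 2 := by
    rw [D.z1, D.ιL, ← D.z1, D.r1, D.r0]
  have hi2 : ι (z 2) = z 1 := by rw [← hi1, D.ι2]
  have hσ1 : σ (z 1) = z 1 := by rw [D.z1, D.σL]
  have hσ0 : σ (z 0) = z 0 := by rw [← D.r1, D.comm, hσ1]
  have hσ2 : σ (z 2) = z 2 := by rw [← D.r0, D.comm, hσ0]
  have hK : ∀ t : k, algebraMap K M (algebraMap k K t) = jL (algebraMap k L t) := fun t => D.jKk t
  have h3 : (3 : M) ≠ 0 := three_ne_zero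
  have hp2 : jL (algebraMap k L p2) = 3 * c := by
    rw [hc, ← map_ofNat jL 3, ← map_ofNat (algebraMap k L) 3, ← map_mul, ← map_mul]
    congr 2
    ring
  have hpc : jL (algebraMap k L p) = jL (algebraMap k L p1) - 3 * c ^ 2 := by
    have h : p = p1 - 3 * (p2 / 3) ^ 2 := by rw [hp]; ring
    rw [h, hc, map_sub, map_sub, map_mul, map_mul, map_pow, map_pow, map_ofNat, map_ofNat]
  have hqc : jL (algebraMap k L q) = jL (algebraMap k L p0) - jL (algebraMap k L p1) * c +
      2 * c ^ 3 := by
    have h : q = p0 - p1 * (p2 / 3) + 2 * (p2 / 3) ^ 3 := by rw [hq]; ring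
    rw [h, hc, map_add, map_add, map_sub, map_sub, map_mul, map_mul, map_mul, map_mul, map_pow,
      map_pow, map_ofNat, map_ofNat]
  have e1 := D.s1
  have e2 := D.s2
  have e3 := D.s3
  rw [hpc] at e2
  rw [hqc] at e3
  refine ⟨E, M, fE, fM, nE, nM, aLM, aKE, aEM, aKM, tKEM, tkKM, tkLM, ρ', ι', σ',
    fun i => z i - c, y, ?_, ?_, ?_, hz1, ?_, ?_, ?_⟩
  · exact
      { h3 := hG.rank
        ρL := ⟨y, hρL⟩
        ρ3 := D.ρ3
        σ2 := D.σ2
        ι2 := D.ι2
        comm := D.comm
        σι := D.σι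
        ιρ := D.ιρ
        σL := D.σL
        ιL := D.ιL
        fixL := D.fixL
        fixk := fun x h1 h2 h3 => by
          obtain ⟨t, ht⟩ := D.fixk x h1 h2 h3
          exact ⟨t, by rw [hkM, ht]⟩ }
  · exact
      { h3 := D.h3
        r3 := D.ρ3
        rE := by
          obtain ⟨e, he⟩ := D.jEL
          refine ⟨e, ?_⟩
          change ρ (jE e) ≠ jE e
          rw [he]
          exact D.ρL
        ii := by
          rintro _ rfl m
          exact D.ι2 m
        iri := by
          rintro _ rfl m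
          change ι (ρ (ι m)) = ρ (ρ m)
          rw [D.ιρ, D.ι2]
        iE := by
          rintro _ rfl e
          exact D.iE e
        fixE := fun m hm => D.fixE m (hm ι' rfl)
        fixk := fun m h1 h2 => D.fixK m h1 (h2 ι' rfl)
        sub := Set.subsingleton_singleton }
  · exact
      { r0 := by
          change ρ (z 0 - c) = z 2 - c
          rw [map_sub, D.r0, hρc]
        r1 := by
          change ρ (z 1 - c) = z 0 - c
          rw [map_sub, D.r1, hρc]
        r2 := by
          change ρ (z 2 - c) = z 1 - c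
          rw [map_sub, hr2, hρc]
        i0 := by
          rintro _ rfl
          change ι (z 0 - c) = z 0 - c
          rw [map_sub, D.i0, hιc]
        i1 := by
          rintro _ rfl
          change ι (z 1 - c) = z 2 - c
          rw [map_sub, hi1, hιc]
        i2 := by
          rintro _ rfl
          change ι (z 2 - c) = z 1 - c
          rw [map_sub, hi2, hιc]
        h01 := fun h => D.n01 (sub_left_injective h)
        h02 := fun h => D.n02 (sub_left_injective h)
        h12 := fun h => D.n12 (sub_left_injective h)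
        e2 := by
          rw [hK, hp2]
          linear_combination e1
        e1 := by
          rw [hK]
          linear_combination -e2 + 2 * c * e1
        e0 := by
          rw [hK]
          linear_combination e3 - c * e2 + c ^ 2 * e1 }
  · intro i
    change σ (z i - c) = z i - c
    rw [map_sub, hσc]
    fin_cases i
    · change σ (z 0) - c = z 0 - c
      rw [hσ0]
    · change σ (z 1) - c = z 1 - c
      rw [hσ1]
    · change σ (z 2) - c = z 2 - c
      rw [hσ2]
  · exact D.σK
  · intro a h1 h4 h5 h6 w hw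
    exact D.nsq a h1 h4 (hdsc ▸ h5) (hdsc ▸ h6) w (hw.trans (hkM a))

/-- **The field generated by the conjugates of a noncyclic cubic field and a quadratic field.** -/
theorem exists_M {k K : Type} [Field k] [NumberField k] [Field K] [NumberField K]
    [Algebra k K] {s : K ≃ₐ[k] K} {th : K} {kap : k} (h2 : Module.finrank k K = 2)
    (hth : th * th = algebraMap k K kap) (hs : s th = -th) {p0 p1 p2 : k}
    (hirr : Irreducible (X ^ 3 + C p2 * X ^ 2 + C p1 * X + C p0 : k[X]))
    (hd : ¬ IsSquare (dsc3 p0 p1 p2)) (hdk : ¬ IsSquare (dsc3 p0 p1 p2 * kap)) :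
    ∃ (L E M : Type) (_ : Field L) (_ : Field E) (_ : Field M) (_ : NumberField L)
      (_ : NumberField E) (_ : NumberField M) (_ : Algebra k L) (_ : Algebra L M)
      (_ : Algebra K E) (_ : Algebra E M) (_ : Algebra K M) (_ : IsScalarTower K E M),
      letI : Algebra k M := Algebra.compHom M (algebraMap k K)
      ∃ (_ : IsScalarTower k K M) (_ : IsScalarTower k L M) (ρ ι : M ≃ₐ[K] M) (σ : M ≃ₐ[k] M)
        (x : Fin 3 → M) (y : L),
        MH (L := L) (ρ.restrictScalars k) σ (ι.restrictScalars k) ∧ SetU K E M ρ {ι} ∧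
        Cjg ρ {ι} (algebraMap k K p0) (algebraMap k K p1) (algebraMap k K p2) x ∧
        x 1 = algebraMap L M y ∧ (∀ i, σ (x i) = x i) ∧
        (∀ t : K, σ (algebraMap K M t) = algebraMap K M (s t)) ∧
        (∀ a : k, ¬ IsSquare a → ¬ IsSquare (a * kap) → ¬ IsSquare (a * dsc3 p0 p1 p2) →
          ¬ IsSquare (a * kap * dsc3 p0 p1 p2) → ∀ z : M, z * z ≠ algebraMap k M a) := by
  have hkap : ¬ IsSquare kap := by
    rintro ⟨r, hr⟩
    have h1 : (th - algebraMap k K r) * (th + algebraMap k K r) = 0 := by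
      have h : algebraMap k K kap = algebraMap k K r * algebraMap k K r := by rw [hr, map_mul]
      linear_combination hth + h
    have h5 : th = 0 := by
      rcases mul_eq_zero.1 h1 with h | h
      · have h4 : th = algebraMap k K r := sub_eq_zero.1 h
        have h5 : s th = th := by rw [h4, s.commutes]
        rw [hs] at h5
        exact self_eq_neg.1 h5.symm
      · have h4 : th = -algebraMap k K r := eq_neg_of_add_eq_zero_left h
        have h5 : s th = th := by rw [h4, map_neg, s.commutes]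
        rw [hs] at h5
        exact self_eq_neg.1 h5.symm
    apply hdk
    have h6 : kap = 0 := by
      rw [h5, mul_zero] at hth
      exact (map_eq_zero _).1 hth.symm
    exact ⟨0, by rw [h6, mul_zero, mul_zero]⟩
  set P : k[X] := X ^ 3 + C p2 * X ^ 2 + C p1 * X + C p0 with hP
  have hdeg : P.natDegree = 3 := by
    rw [hP]
    compute_degree!
  have : Fact (Irreducible P) := ⟨hirr⟩
  have hfin : FiniteDimensional k (AdjoinRoot P) := (AdjoinRoot.powerBasis hirr.ne_zero).finite
  have h3 : Module.finrank k (AdjoinRoot P) = 3 := by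
    rw [(AdjoinRoot.powerBasis hirr.ne_zero).finrank, AdjoinRoot.powerBasis_dim, hdeg]
  have hroot : Polynomial.aeval (AdjoinRoot.root P) P = 0 := by
    rw [AdjoinRoot.aeval_eq, AdjoinRoot.mk_self]
  have hθ : ∀ t : k, algebraMap k (AdjoinRoot P) t ≠ AdjoinRoot.root P := by
    intro t ht
    rw [← ht, Polynomial.aeval_algebraMap_apply] at hroot
    have h1 : P.IsRoot t := by
      have h2 : algebraMap k (AdjoinRoot P) (Polynomial.aeval t P) =
          algebraMap k (AdjoinRoot P) 0 := by rw [hroot, map_zero]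
      have h4 := (algebraMap k (AdjoinRoot P)).injective h2
      rwa [Polynomial.coe_aeval_eq_eval] at h4
    have h5 := Polynomial.degree_eq_one_of_irreducible_of_root hirr h1
    rw [Polynomial.degree_eq_natDegree hirr.ne_zero, hdeg] at h5
    norm_num at h5
  have hp' : (AdjoinRoot.root P) ^ 3 + algebraMap k _ p2 * (AdjoinRoot.root P) ^ 2 +
      algebraMap k _ p1 * AdjoinRoot.root P + algebraMap k _ p0 = 0 := by
    have h := hroot
    conv at h =>
      lhs
      arg 2
      rw [hP]
    simpa using h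
  have nL : NumberField (AdjoinRoot P) := NumberField.of_module_finite k _
  have c0 : CharZero (AdjoinRoot P) := inferInstance
  have hG : Gen (AdjoinRoot.root P + algebraMap k (AdjoinRoot P) (p2 / 3)) (p1 - p2 ^ 2 / 3)
      (p0 - p1 * p2 / 3 + 2 * p2 ^ 3 / 27) := by
    refine ⟨h3, ?_, ?_⟩
    · obtain ⟨c, hc⟩ : ∃ c : AdjoinRoot P, c = algebraMap k _ (p2 / 3) := ⟨_, rfl⟩
      have e2 : algebraMap k (AdjoinRoot P) p2 = 3 * c := by
        rw [hc, ← map_ofNat (algebraMap k (AdjoinRoot P)) 3, ← map_mul]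
        congr 1
        ring
      have e1 : algebraMap k (AdjoinRoot P) (p1 - p2 ^ 2 / 3) =
          algebraMap k (AdjoinRoot P) p1 - 3 * c ^ 2 := by
        have h : p1 - p2 ^ 2 / 3 = p1 - 3 * (p2 / 3) ^ 2 := by ring
        rw [h, hc, map_sub, map_mul, map_pow, map_ofNat]
      have e0 : algebraMap k (AdjoinRoot P) (p0 - p1 * p2 / 3 + 2 * p2 ^ 3 / 27) =
          algebraMap k (AdjoinRoot P) p0 - algebraMap k (AdjoinRoot P) p1 * c + 2 * c ^ 3 := by
        have h : p0 - p1 * p2 / 3 + 2 * p2 ^ 3 / 27 = p0 - p1 * (p2 / 3) + 2 * (p2 / 3) ^ 3 := by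
          ring
        rw [h, hc, map_add, map_sub, map_mul, map_mul, map_pow, map_ofNat]
      rw [e1, e0, ← hc]
      rw [e2] at hp'
      linear_combination hp'
    · intro t ht
      apply hθ (t - p2 / 3)
      rw [map_sub, ht, add_sub_cancel_right]
  obtain ⟨E, M, fE, fM, nE, nM, aLM, aKE, aEM, aKM, tKEM, h⟩ :=
    exists_M_aux h2 hth hs hkap hG rfl rfl hd hdk
  exact ⟨AdjoinRoot P, E, M, inferInstance, fE, fM, nL, nE, nM, inferInstance, aLM, aKE, aEM, aKM,
    tKEM, h⟩

end Vale.Agent.P011.E6W.H196
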