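import Mathlib

/-!
Block E6W, the group over the quadratic extension: determinants, and a lemma on groups.
-/

open Matrix

namespace Vale.Agent.P011.E6W.H196

/-- Subgroups without proper subgroups of finite index correspond under isomorphisms. -/
theorem top_of_equiv {G G' : Type} [Group G] [Group G'] (e : G' ≃* G) {H : Subgroup G}
    {H' : Subgroup G'} (h : ∀ g, g ∈ H' ↔ e g ∈ H)
    (htop : ∀ N : Subgroup H', N.index ≠ 0 → N = ⊤) (N : Subgroup H) (hN : N.index ≠ 0) :
    N = ⊤ := by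
  let f : H' →* H := (e.toMonoidHom.comp H'.subtype).codRestrict H fun g => (h g.1).1 g.2
  have hf : Function.Surjective f := by
    rintro ⟨g, hg⟩
    refine ⟨⟨e.symm g, (h _).2 (by rwa [e.apply_symm_apply])⟩, ?_⟩
    apply Subtype.ext
    exact e.apply_symm_apply g
  have h1 := htop (N.comap f) (by rwa [Subgroup.index_comap_of_surjective N hf])
  rw [eq_top_iff]
  intro g _
  obtain ⟨g', rfl⟩ := hf g
  have h2 : g' ∈ N.comap f := by
    rw [h1]
    exact Subgroup.mem_top _
  exact h2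

section det

variable {R : Type} [CommRing R]

theorem det_add_smul (A B : Matrix (Fin 3) (Fin 3) R) (t : R) :
    (A + t • B).det = A.det + t * (A.adjugate * B).trace + t ^ 2 * (A * B.adjugate).trace +
      t ^ 3 * B.det := by
  rw [Matrix.det_fin_three, Matrix.det_fin_three, Matrix.det_fin_three, Matrix.adjugate_fin_three,
    Matrix.adjugate_fin_three, Matrix.trace_fin_three, Matrix.trace_fin_three]
  simp only [Matrix.mul_apply, Fin.sum_univ_three, Matrix.add_apply, Matrix.smul_apply,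
    smul_eq_mul]
  simp
  ring

variable {k : Type} [Field k]

/-- The determinant over the quadratic algebra. -/
theorem det_quad (ka : k) (A B : Matrix (Fin 3) (Fin 3) k) :
    (A.map (algebraMap k (QuadraticAlgebra k ka 0)) +
      (⟨0, 1⟩ : QuadraticAlgebra k ka 0) • B.map (algebraMap k (QuadraticAlgebra k ka 0))).det =
      ⟨A.det + ka * (A * B.adjugate).trace, (A.adjugate * B).trace + ka * B.det⟩ := by
  have h1 : ∀ X : Matrix (Fin 3) (Fin 3) k, (X.map (algebraMap k (QuadraticAlgebra k ka 0))).det =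
      algebraMap k _ X.det := fun X => (RingHom.map_det _ X).symm
  have h2 : ∀ X : Matrix (Fin 3) (Fin 3) k,
      (X.map (algebraMap k (QuadraticAlgebra k ka 0))).adjugate =
      X.adjugate.map (algebraMap k _) := fun X => (RingHom.map_adjugate _ X).symm
  have h3 : ∀ X : Matrix (Fin 3) (Fin 3) k,
      (X.map (algebraMap k (QuadraticAlgebra k ka 0))).trace = algebraMap k _ X.trace := fun X =>
    (AddMonoidHom.map_trace (algebraMap k (QuadraticAlgebra k ka 0)) X).symm
  rw [det_add_smul, h1, h1, h2, h2, ← Matrix.map_mul, ← Matrix.map_mul, h3, h3]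
  have e1 : (⟨0, 1⟩ : QuadraticAlgebra k ka 0) ^ 2 = ⟨ka, 0⟩ := by
    rw [pow_two]
    apply QuadraticAlgebra.ext
    · rw [QuadraticAlgebra.re_mul]
      change 0 * 0 + ka * 1 * 1 = ka
      ring
    · rw [QuadraticAlgebra.im_mul]
      change 0 * 1 + 1 * 0 + 0 * 1 * 1 = (0 : k)
      ring
  have e2 : ∀ t : k, algebraMap k (QuadraticAlgebra k ka 0) t = ⟨t, 0⟩ := fun _ => rfl
  have e3 : (⟨0, 1⟩ : QuadraticAlgebra k ka 0) ^ 3 = ⟨ka, 0⟩ * ⟨0, 1⟩ := by rw [pow_succ, e1]
  rw [e3, e1, e2, e2, e2, e2]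
  apply QuadraticAlgebra.ext
  · simp only [QuadraticAlgebra.re_add, QuadraticAlgebra.re_mul, QuadraticAlgebra.im_mul]
    ring
  · simp only [QuadraticAlgebra.im_add, QuadraticAlgebra.re_mul, QuadraticAlgebra.im_mul]
    ring

/-- The cube of `A + θ B`, where `θ² = ka`: the first component. -/
def cP (ka : k) (A B : Matrix (Fin 3) (Fin 3) k) : Matrix (Fin 3) (Fin 3) k :=
  (A * A + ka • (B * B)) * A + ka • ((A * B + B * A) * B)

/-- The cube of `A + θ B`, where `θ² = ka`: the second component. -/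
def cR (ka : k) (A B : Matrix (Fin 3) (Fin 3) k) : Matrix (Fin 3) (Fin 3) k :=
  (A * A + ka • (B * B)) * B + (A * B + B * A) * A

theorem mapq_mul (ka : k) (A B : Matrix (Fin 3) (Fin 3) k) :
    (A * B).map (algebraMap k (QuadraticAlgebra k ka 0)) =
      A.map (algebraMap k (QuadraticAlgebra k ka 0)) * B.map (algebraMap k _) :=
  Matrix.map_mul

theorem mapq_smul (ka t : k) (A : Matrix (Fin 3) (Fin 3) k) :
    (t • A).map (algebraMap k (QuadraticAlgebra k ka 0)) =
      algebraMap k (QuadraticAlgebra k ka 0) t • A.map (algebraMap k _) := by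
  ext i j : 1
  rw [Matrix.map_apply, Matrix.smul_apply, Matrix.smul_apply, Matrix.map_apply, smul_eq_mul,
    map_mul, smul_eq_mul]

theorem mapq_add (ka : k) (A B : Matrix (Fin 3) (Fin 3) k) :
    (A + B).map (algebraMap k (QuadraticAlgebra k ka 0)) =
      A.map (algebraMap k (QuadraticAlgebra k ka 0)) + B.map (algebraMap k _) := by
  ext i j : 1
  rw [Matrix.map_apply, Matrix.add_apply, Matrix.add_apply, Matrix.map_apply, Matrix.map_apply,
    map_add]

theorem mapq_sub (ka : k) (A B : Matrix (Fin 3) (Fin 3) k) :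
    (A - B).map (algebraMap k (QuadraticAlgebra k ka 0)) =
      A.map (algebraMap k (QuadraticAlgebra k ka 0)) - B.map (algebraMap k _) := by
  ext i j : 1
  rw [Matrix.map_apply, Matrix.sub_apply, Matrix.sub_apply, Matrix.map_apply, Matrix.map_apply,
    map_sub]

/-- Product over the quadratic algebra. -/
theorem quad_mul (ka : k) (A B A' B' : Matrix (Fin 3) (Fin 3) k) :
    (A.map (algebraMap k (QuadraticAlgebra k ka 0)) +
      (⟨0, 1⟩ : QuadraticAlgebra k ka 0) • B.map (algebraMap k (QuadraticAlgebra k ka 0))) *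
    (A'.map (algebraMap k (QuadraticAlgebra k ka 0)) +
      (⟨0, 1⟩ : QuadraticAlgebra k ka 0) • B'.map (algebraMap k (QuadraticAlgebra k ka 0))) =
    (A * A' + ka • (B * B')).map (algebraMap k (QuadraticAlgebra k ka 0)) +
      (⟨0, 1⟩ : QuadraticAlgebra k ka 0) •
        (A * B' + B * A').map (algebraMap k (QuadraticAlgebra k ka 0)) := by
  have e1 : (⟨0, 1⟩ : QuadraticAlgebra k ka 0) * ⟨0, 1⟩ = algebraMap k _ ka := by
    apply QuadraticAlgebra.ext
    · rw [QuadraticAlgebra.re_mul]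
      change 0 * 0 + ka * 1 * 1 = ka
      ring
    · rw [QuadraticAlgebra.im_mul]
      change 0 * 1 + 1 * 0 + 0 * 1 * 1 = (0 : k)
      ring
  rw [mapq_add, mapq_add, mapq_smul, mapq_mul, mapq_mul, mapq_mul, mapq_mul, Matrix.add_mul,
    Matrix.mul_add, Matrix.mul_add, Matrix.smul_mul, Matrix.smul_mul, Matrix.mul_smul,
    Matrix.mul_smul, smul_smul, e1, smul_add]
  abel

/-- The determinant of the difference of two squares. -/
theorem det_normF (ka : k) {A B : Matrix (Fin 3) (Fin 3) k} (h : A * B = B * A) :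
    (A * A - ka • (B * B)).det =
      (A.det + ka * (A * B.adjugate).trace) ^ 2 -
        ka * ((A.adjugate * B).trace + ka * B.det) ^ 2 := by
  have h1 := quad_mul ka A B A (-B)
  have h2 := congrArg Matrix.det h1
  rw [Matrix.det_mul, det_quad, det_quad, det_quad] at h2
  have h3 := congrArg QuadraticAlgebra.re h2
  rw [QuadraticAlgebra.re_mul] at h3
  have e1 : A * -B + B * A = 0 := by rw [Matrix.mul_neg, h, neg_add_cancel]
  have e2 : A * A + ka • (B * -B) = A * A - ka • (B * B) := by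
    rw [Matrix.mul_neg, smul_neg, sub_eq_add_neg]
  have e3 : (-B).adjugate = B.adjugate := by
    rw [← neg_one_smul k B, Matrix.adjugate_smul]
    simp
  rw [e1, e2, e3, Matrix.adjugate_zero, Matrix.mul_zero, Matrix.trace_zero, mul_zero,
    add_zero, Matrix.mul_neg, Matrix.trace_neg, Matrix.det_neg] at h3
  simp at h3
  rw [← h3]
  ring

/-- The determinant of the normalised element. -/
theorem det_final (ka T ν n0 n1 : k) {A B : Matrix (Fin 3) (Fin 3) k}
    (hn0 : n0 = A.det + ka * (A * B.adjugate).trace)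
    (hn1 : n1 = (A.adjugate * B).trace + ka * B.det) (hν : ν = n0 ^ 2 - ka * n1 ^ 2)
    {A' B' : Matrix (Fin 3) (Fin 3) k}
    (hA' : A' = (T * ν) • (n0 • cP ka A B - (ka * n1) • cR ka A B))
    (hB' : B' = (T * ν) • (n0 • cR ka A B - n1 • cP ka A B)) :
    A'.det + ka * (A' * B'.adjugate).trace = T ^ 3 * ν ^ 6 ∧
      (A'.adjugate * B').trace + ka * B'.det = 0 := by
  have h1 := quad_mul ka A B A B
  have h2 := quad_mul ka (A * A + ka • (B * B)) (A * B + B * A) A B
  rw [← h1] at h2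
  have h3 := congrArg Matrix.det h2
  rw [Matrix.det_mul, Matrix.det_mul, det_quad, ← hn0, ← hn1] at h3
  -- the matrix `A' + θ B'`
  obtain ⟨q, hq⟩ : ∃ q : QuadraticAlgebra k ka 0, q = ⟨T * ν * n0, -(T * ν * n1)⟩ := ⟨_, rfl⟩
  have h4 : A'.map (algebraMap k (QuadraticAlgebra k ka 0)) +
      (⟨0, 1⟩ : QuadraticAlgebra k ka 0) • B'.map (algebraMap k (QuadraticAlgebra k ka 0)) =
      q • ((cP ka A B).map (algebraMap k (QuadraticAlgebra k ka 0)) +
      (⟨0, 1⟩ : QuadraticAlgebra k ka 0) •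
        (cR ka A B).map (algebraMap k (QuadraticAlgebra k ka 0))) := by
    apply Matrix.ext
    intro i j
    rw [hA', hB', hq]
    simp only [Matrix.add_apply, Matrix.smul_apply, Matrix.map_apply, Matrix.sub_apply,
      smul_eq_mul]
    have hre : ∀ t : k, (algebraMap k (QuadraticAlgebra k ka 0) t).re = t := fun _ => rfl
    apply QuadraticAlgebra.ext
    · simp only [QuadraticAlgebra.re_add, QuadraticAlgebra.re_mul, QuadraticAlgebra.im_add,
        QuadraticAlgebra.im_mul]
      change (T * ν) * (n0 * _ - (ka * n1) * _) + (0 * _ + ka * 1 * 0) = T * ν * n0 *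
        (_ + (0 * _ + ka * 1 * 0)) + ka * -(T * ν * n1) * (0 + (0 * 0 + 1 * _ + 0 * 1 * 0))
      simp only [hre]
      ring
    · simp only [QuadraticAlgebra.re_add, QuadraticAlgebra.re_mul, QuadraticAlgebra.im_add,
        QuadraticAlgebra.im_mul]
      change 0 + (0 * 0 + 1 * ((T * ν) * (n0 * _ - n1 * _)) + 0 * 1 * 0) = T * ν * n0 *
        (0 + (0 * 0 + 1 * _ + 0 * 1 * 0)) + -(T * ν * n1) * (_ + (0 * _ + ka * 1 * 0)) +
        0 * -(T * ν * n1) * (0 + (0 * 0 + 1 * _ + 0 * 1 * 0))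
      simp only [hre]
      ring
  have h5 := congrArg Matrix.det h4
  have h6 : ((cP ka A B).map (algebraMap k (QuadraticAlgebra k ka 0)) +
      (⟨0, 1⟩ : QuadraticAlgebra k ka 0) •
        (cR ka A B).map (algebraMap k (QuadraticAlgebra k ka 0))).det =
      (⟨n0, n1⟩ : QuadraticAlgebra k ka 0) * ⟨n0, n1⟩ * ⟨n0, n1⟩ := h3.symm
  rw [det_quad, Matrix.det_smul, h6, Fintype.card_fin] at h5
  have h7 : q * (⟨n0, n1⟩ : QuadraticAlgebra k ka 0) = ⟨T * ν ^ 2, 0⟩ := by
    rw [hq]
    apply QuadraticAlgebra.ext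
    · rw [QuadraticAlgebra.re_mul]
      change T * ν * n0 * n0 + ka * -(T * ν * n1) * n1 = T * ν ^ 2
      rw [pow_two ν]
      nth_rewrite 4 [hν]
      ring
    · rw [QuadraticAlgebra.im_mul]
      change T * ν * n0 * n1 + -(T * ν * n1) * n0 + 0 * -(T * ν * n1) * n1 = 0
      ring
  have h8 : q ^ 3 * ((⟨n0, n1⟩ : QuadraticAlgebra k ka 0) * ⟨n0, n1⟩ * ⟨n0, n1⟩) =
      ⟨T ^ 3 * ν ^ 6, 0⟩ := by
    have h9 : q ^ 3 * ((⟨n0, n1⟩ : QuadraticAlgebra k ka 0) * ⟨n0, n1⟩ * ⟨n0, n1⟩) =
      (q * ⟨n0, n1⟩) ^ 3 := by ring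
    have h10 : (⟨T * ν ^ 2, 0⟩ : QuadraticAlgebra k ka 0) = algebraMap k _ (T * ν ^ 2) := rfl
    rw [h9, h7, h10, ← map_pow]
    change algebraMap k (QuadraticAlgebra k ka 0) _ = algebraMap k _ (T ^ 3 * ν ^ 6)
    congr 1
    ring
  rw [h8] at h5
  exact ⟨congrArg QuadraticAlgebra.re h5, congrArg QuadraticAlgebra.im h5⟩

end det

end Vale.Agent.P011.E6W.H196
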