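import Vale.Agent.P011.E6W.H684.PDefs
import Vale.Agent.P011.E6W.H196.KTd
import Vale.Agent.P011.D4.Asm2
import Vale.Agent.P011.D4.TG5
import Vale.Agent.P011.E6.Coord
import Vale.Agent.P011.E6.LanGood

/-!
Block E6W, the group over the quadratic extension: the change of the basis of the quaternion
algebra.
-/

open Matrix

namespace Vale.Agent.P011.E6W.H196

open Vale.Agent.P011.MPQ hiding mat
open Vale.Agent.P011.D4 Vale.Agent.P011.D4.Oct Vale.Agent.P011.E6 Vale.Agent.P011.E6.Alb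
open Vale.Agent.P011.E6I (MQ toMQ Mp S0 S1 S2 FixK)
open Vale.Agent.P011.E6W.H684 (GKJ)

section cE

variable {F V V' : Type} [Field F] [AddCommGroup V] [Module F V] [AddCommGroup V'] [Module F V']

/-- Conjugation by an isomorphism. -/
def cE (Ψ : V' ≃ₗ[F] V) : (V' ≃ₗ[F] V') ≃* (V ≃ₗ[F] V) where
  toFun T := (Ψ.symm.trans T).trans Ψ
  invFun T := (Ψ.trans T).trans Ψ.symm
  left_inv T := by
    apply LinearEquiv.ext
    intro x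
    change Ψ.symm (Ψ (T (Ψ.symm (Ψ x)))) = T x
    rw [LinearEquiv.symm_apply_apply, LinearEquiv.symm_apply_apply]
  right_inv T := by
    apply LinearEquiv.ext
    intro x
    change Ψ (Ψ.symm (T (Ψ (Ψ.symm x)))) = T x
    rw [LinearEquiv.apply_symm_apply, LinearEquiv.apply_symm_apply]
  map_mul' T T' := by
    apply LinearEquiv.ext
    intro x
    change Ψ (T (T' (Ψ.symm x))) = Ψ (T (Ψ.symm (Ψ (T' (Ψ.symm x)))))
    rw [LinearEquiv.symm_apply_apply]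

theorem cE_apply (Ψ : V' ≃ₗ[F] V) (T : V' ≃ₗ[F] V') (x : V') : cE Ψ T (Ψ x) = Ψ (T x) := by
  change Ψ (T (Ψ.symm (Ψ x))) = _
  rw [LinearEquiv.symm_apply_apply]

end cE

section model

variable {F : Type} [Field F] {a b c a' b' : Fˣ}

/-- The isomorphisms of quaternion algebras, and the action of the matrices. -/
structure QIso (Φ : Qt a' b' ≃ₐ[F] Qt a b) : Prop where
  st : ∀ x, Φ (star x) = star (Φ x)
  re : ∀ x, (Φ x).re = x.re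

variable {Φ : Qt a' b' ≃ₐ[F] Qt a b} {Ψ : Alb a' b' c ≃ₗ[F] Alb a b c}

theorem mat_iso (hΦ : QIso Φ) (hΨ : ∀ x, Ψ x = ⟨x.d1, x.d2, x.d3, ⟨Φ x.x1.fst, Φ x.x1.snd⟩,
    ⟨Φ x.x2.fst, Φ x.x2.snd⟩, ⟨Φ x.x3.fst, Φ x.x3.snd⟩⟩) (x : Alb a' b' c) :
    Alb.mat (Ψ x) = (Alb.mat x).map Φ := by
  rw [hΨ]
  apply Matrix.ext
  intro i j
  fin_cases i <;> fin_cases j <;> simp [Alb.mat, hΦ.st]
  · exact (Φ.commutes _).symm
  · exact (Φ.commutes _).symm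
  · exact (Φ.commutes _).symm

theorem vec_iso (hΨ : ∀ x, Ψ x = ⟨x.d1, x.d2, x.d3, ⟨Φ x.x1.fst, Φ x.x1.snd⟩,
    ⟨Φ x.x2.fst, Φ x.x2.snd⟩, ⟨Φ x.x3.fst, Φ x.x3.snd⟩⟩) (x : Alb a' b' c) (i : Fin 3) :
    Alb.vec (Ψ x) i = Φ (Alb.vec x i) := by
  rw [hΨ]
  fin_cases i <;> simp [Alb.vec]

theorem ofMV_iso (hΦ : QIso Φ) (hΨ : ∀ x, Ψ x = ⟨x.d1, x.d2, x.d3, ⟨Φ x.x1.fst, Φ x.x1.snd⟩,
    ⟨Φ x.x2.fst, Φ x.x2.snd⟩, ⟨Φ x.x3.fst, Φ x.x3.snd⟩⟩) (S : Matrix (Fin 3) (Fin 3) (Qt a' b'))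
    (v : Fin 3 → Qt a' b') :
    Ψ (Alb.ofMV S v) = Alb.ofMV (S.map Φ) (fun i => Φ (v i)) := by
  rw [hΨ]
  apply Alb.ext
  · exact (hΦ.re _).symm
  · exact (hΦ.re _).symm
  · exact (hΦ.re _).symm
  · rfl
  · rfl
  · rfl

/-- The units. -/
def uM (Φ : Qt a' b' ≃ₐ[F] Qt a b) : (Matrix (Fin 3) (Fin 3) (Qt a' b'))ˣ →*
    (Matrix (Fin 3) (Fin 3) (Qt a b))ˣ :=
  Units.map ((Φ : Qt a' b' →+* Qt a b).mapMatrix (m := Fin 3)).toMonoidHom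

theorem uM_val (m : (Matrix (Fin 3) (Fin 3) (Qt a' b'))ˣ) :
    (uM Φ m : Matrix (Fin 3) (Fin 3) (Qt a b)) =
      (m : Matrix (Fin 3) (Fin 3) (Qt a' b')).map Φ := rfl

theorem act_iso (hΦ : QIso Φ) (hΨ : ∀ x, Ψ x = ⟨x.d1, x.d2, x.d3, ⟨Φ x.x1.fst, Φ x.x1.snd⟩,
    ⟨Φ x.x2.fst, Φ x.x2.snd⟩, ⟨Φ x.x3.fst, Φ x.x3.snd⟩⟩)
    (m : (Matrix (Fin 3) (Fin 3) (Qt a' b'))ˣ) (κ : Qt a' b') (x : Alb a' b' c) :
    Ψ (act m κ x) = act (uM Φ m) (Φ κ) (Ψ x) := by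
  have mm : ∀ U V : Matrix (Fin 3) (Fin 3) (Qt a' b'), (U * V).map Φ = U.map Φ * V.map Φ :=
    fun U V => Matrix.map_mul (f := (Φ : Qt a' b' →+* Qt a b))
  have mh : ∀ U : Matrix (Fin 3) (Fin 3) (Qt a' b'), (Uᴴ).map Φ = (U.map Φ)ᴴ := by
    intro U
    ext i j : 1
    rw [Matrix.map_apply, Matrix.conjTranspose_apply, Matrix.conjTranspose_apply,
      Matrix.map_apply, hΦ.st]
  rw [act, act, ofMV_iso hΦ hΨ, mm, mm, mh, mat_iso hΦ hΨ, uM_val]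
  congr 1
  funext i
  rw [map_mul]
  congr 1
  have h1 : (((uM Φ m)⁻¹ : (Matrix (Fin 3) (Fin 3) (Qt a b))ˣ) :
      Matrix (Fin 3) (Fin 3) (Qt a b)) =
      ((m⁻¹ : (Matrix (Fin 3) (Fin 3) (Qt a' b'))ˣ) :
        Matrix (Fin 3) (Fin 3) (Qt a' b')).map Φ := by
    rw [← map_inv, uM_val]
  rw [h1]
  simp only [Matrix.vecMul, dotProduct, Fin.sum_univ_three, map_add, map_mul, Matrix.map_apply,
    vec_iso hΨ]

end model

end Vale.Agent.P011.E6W.H196
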