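import Vale.Agent.P011.E6W.H7.Kl1
import Vale.Agent.P011.E6W.H684.PDefs
import Vale.Agent.P011.E6I.Fx
import Vale.Agent.P011.E6I.FxP
import Vale.Agent.P011.E6I.FxU
import Vale.Agent.P011.E6I.H319.Sign
import Vale.Agent.P011.D4X.H67.KCa

/-!
Block E6W, the group over the quadratic extension: conjugation by elements which multiply the
frame.
-/

open Matrix

namespace Vale.Agent.P011.E6W.H196

open Vale.Agent.P011.MPQ hiding mat
open Vale.Agent.P011.D4 Vale.Agent.P011.D4.Oct Vale.Agent.P011.E6 Vale.Agent.P011.E6.Alb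
open Vale.Agent.P011.E6I (Mp S0 S1 S2 FixK cj cjE)
open Vale.Agent.P011.E6I.Fx
open Vale.Agent.P011.E6W.H7 (sm smU sm_mul sm_one smH cj_eq_act)

section F

variable {F : Type} [Field F] {a b c : Fˣ} {p0 p1 p2 : F}

/-- A matrix over the quadratic field generated by the first generator. -/
def pm (a b : Fˣ) (X Y : Matrix (Fin 3) (Fin 3) F) : Matrix (Fin 3) (Fin 3) (Qt a b) :=
  Matrix.of fun i j => ⟨X i j, Y i j, 0, 0⟩

theorem pm_apply (X Y : Matrix (Fin 3) (Fin 3) F) (i j : Fin 3) :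
    pm a b X Y i j = ⟨X i j, Y i j, 0, 0⟩ := rfl

theorem pm_mul (X Y X' Y' : Matrix (Fin 3) (Fin 3) F) : pm a b X Y * pm a b X' Y' =
    pm a b (X * X' + (a : F) • (Y * Y')) (X * Y' + Y * X') := by
  apply Matrix.ext
  intro i j
  rw [Matrix.mul_apply, Fin.sum_univ_three]
  simp only [pm_apply, Matrix.add_apply, Matrix.smul_apply, Matrix.mul_apply, Fin.sum_univ_three]
  apply QuaternionAlgebra.ext <;> simp <;> ring

theorem pm_zero (X : Matrix (Fin 3) (Fin 3) F) : pm a b X 0 = sm a b X := rfl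

theorem pmH (X Y : Matrix (Fin 3) (Fin 3) F) : (pm a b X Y)ᴴ = pm a b Xᵀ (-Yᵀ) := by
  apply Matrix.ext
  intro i j
  rw [conjTranspose_apply, pm_apply, pm_apply]
  apply QuaternionAlgebra.ext <;> simp

theorem pm_one : pm a b (1 : Matrix (Fin 3) (Fin 3) F) 0 = 1 := sm_one

theorem comm_all {X Y : Matrix (Fin 3) (Fin 3) F} (hX : X * Mp p0 p1 p2 = Mp p0 p1 p2 * X)
    (hY : Y * Mp p0 p1 p2 = Mp p0 p1 p2 * Y) : X * Y = Y * X := by
  rw [eq_of_comm hX]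
  simp only [Matrix.add_mul, Matrix.mul_add, Matrix.smul_mul, Matrix.mul_smul, Matrix.one_mul,
    Matrix.mul_one, Matrix.mul_assoc, ← hY]
  simp only [← Matrix.mul_assoc, ← hY]

theorem comm_mul {X Y : Matrix (Fin 3) (Fin 3) F} (hX : X * Mp p0 p1 p2 = Mp p0 p1 p2 * X)
    (hY : Y * Mp p0 p1 p2 = Mp p0 p1 p2 * Y) :
    X * Y * Mp p0 p1 p2 = Mp p0 p1 p2 * (X * Y) := by
  rw [Matrix.mul_assoc, hY, ← Matrix.mul_assoc, hX, Matrix.mul_assoc]

theorem comm_add {X Y : Matrix (Fin 3) (Fin 3) F} (hX : X * Mp p0 p1 p2 = Mp p0 p1 p2 * X)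
    (hY : Y * Mp p0 p1 p2 = Mp p0 p1 p2 * Y) :
    (X + Y) * Mp p0 p1 p2 = Mp p0 p1 p2 * (X + Y) := by
  rw [Matrix.add_mul, Matrix.mul_add, hX, hY]

theorem comm_smul {X : Matrix (Fin 3) (Fin 3) F} (t : F)
    (hX : X * Mp p0 p1 p2 = Mp p0 p1 p2 * X) :
    (t • X) * Mp p0 p1 p2 = Mp p0 p1 p2 * (t • X) := by
  rw [Matrix.smul_mul, Matrix.mul_smul, hX]

theorem comm_sub {X Y : Matrix (Fin 3) (Fin 3) F} (hX : X * Mp p0 p1 p2 = Mp p0 p1 p2 * X)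
    (hY : Y * Mp p0 p1 p2 = Mp p0 p1 p2 * Y) :
    (X - Y) * Mp p0 p1 p2 = Mp p0 p1 p2 * (X - Y) := by
  rw [Matrix.sub_mul, Matrix.mul_sub, hX, hY]

theorem comm_one : (1 : Matrix (Fin 3) (Fin 3) F) * Mp p0 p1 p2 = Mp p0 p1 p2 * 1 := by
  rw [Matrix.one_mul, Matrix.mul_one]

theorem comm_inv {X : Matrix (Fin 3) (Fin 3) F} (h0 : X.det ≠ 0)
    (hX : X * Mp p0 p1 p2 = Mp p0 p1 p2 * X) : X⁻¹ * Mp p0 p1 p2 = Mp p0 p1 p2 * X⁻¹ := by
  have hu : IsUnit X.det := isUnit_iff_ne_zero.mpr h0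
  have h1 : X⁻¹ * (X * Mp p0 p1 p2) * X⁻¹ = X⁻¹ * (Mp p0 p1 p2 * X) * X⁻¹ := by rw [hX]
  rw [← Matrix.mul_assoc, Matrix.nonsing_inv_mul _ hu, Matrix.one_mul, ← Matrix.mul_assoc,
    Matrix.mul_assoc _ X, Matrix.mul_nonsing_inv _ hu, Matrix.mul_one] at h1
  exact h1.symm

theorem symm_S0 {X : Matrix (Fin 3) (Fin 3) F} (hX : X * Mp p0 p1 p2 = Mp p0 p1 p2 * X) :
    (X * S0 p1 p2)ᵀ = X * S0 p1 p2 := by
  rw [mul_S0 hX, Matrix.transpose_add, Matrix.transpose_add, Matrix.transpose_smul,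
    Matrix.transpose_smul, Matrix.transpose_smul, E6I.S0_transpose, E6I.S1_transpose,
    E6I.S2_transpose]

theorem S0_mul {X : Matrix (Fin 3) (Fin 3) F} (hX : X * Mp p0 p1 p2 = Mp p0 p1 p2 * X) :
    S0 p1 p2 * Xᵀ = X * S0 p1 p2 := by
  have h := symm_S0 (p0 := p0) (p1 := p1) (p2 := p2) hX
  rwa [Matrix.transpose_mul, E6I.S0_transpose] at h

/-- The action on the frame. -/
theorem pm_frame {X Y f : Matrix (Fin 3) (Fin 3) F} (hX : X * Mp p0 p1 p2 = Mp p0 p1 p2 * X)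
    (hY : Y * Mp p0 p1 p2 = Mp p0 p1 p2 * Y) (hf : f * Mp p0 p1 p2 = Mp p0 p1 p2 * f) :
    pm a b X Y * sm a b (f * S0 p1 p2) * (pm a b X Y)ᴴ =
      sm a b ((X * X - (a : F) • (Y * Y)) * f * S0 p1 p2) := by
  rw [pmH, ← pm_zero, ← pm_zero, pm_mul, pm_mul]
  have hXf := comm_all hX hf
  have hYf := comm_all hY hf
  have hXY := comm_all hX hY
  congr 1
  · simp only [Matrix.mul_zero, smul_zero, add_zero, zero_add, Matrix.mul_neg, smul_neg,
      Matrix.mul_assoc, S0_mul hX, S0_mul hY, Matrix.sub_mul, Matrix.smul_mul]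
    rw [← Matrix.mul_assoc f X, ← hXf, ← Matrix.mul_assoc f Y, ← hYf, Matrix.mul_assoc X f,
      Matrix.mul_assoc Y f, sub_eq_add_neg]
  · simp only [Matrix.mul_zero, smul_zero, add_zero, zero_add, Matrix.mul_neg,
      Matrix.mul_assoc, S0_mul hX, S0_mul hY]
    rw [← Matrix.mul_assoc f X, ← hXf, ← Matrix.mul_assoc f Y, ← hYf, Matrix.mul_assoc X f,
      Matrix.mul_assoc Y f, ← Matrix.mul_assoc X Y, hXY, ← Matrix.mul_assoc Y X,
      neg_add_cancel]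

theorem vec_ofF (S : Matrix (Fin 3) (Fin 3) F) : Alb.vec (Alb.ofF S : Alb a b c) = 0 := by
  funext i
  fin_cases i <;> simp [Alb.vec, Alb.ofF]

theorem ofMV_sm (S : Matrix (Fin 3) (Fin 3) F) :
    (Alb.ofMV (sm a b S) 0 : Alb a b c) = Alb.ofF S := by
  apply Alb.ext
  · rfl
  · rfl
  · rfl
  · refine Oct.ext (QuaternionAlgebra.ext ?_ ?_ ?_ ?_) ?_ <;> simp [Alb.ofMV, Alb.ofF, sm]
  · refine Oct.ext (QuaternionAlgebra.ext ?_ ?_ ?_ ?_) ?_ <;> simp [Alb.ofMV, Alb.ofF, sm]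
  · refine Oct.ext (QuaternionAlgebra.ext ?_ ?_ ?_ ?_) ?_ <;> simp [Alb.ofMV, Alb.ofF, sm]

theorem act_frame {M : (Matrix (Fin 3) (Fin 3) (Qt a b))ˣ} {X Y f : Matrix (Fin 3) (Fin 3) F}
    (hM : (M : Matrix (Fin 3) (Fin 3) (Qt a b)) = pm a b X Y)
    (hX : X * Mp p0 p1 p2 = Mp p0 p1 p2 * X)
    (hY : Y * Mp p0 p1 p2 = Mp p0 p1 p2 * Y) (hf : f * Mp p0 p1 p2 = Mp p0 p1 p2 * f)
    (κ : Qt a b) :
    act M κ (ofF (f * S0 p1 p2) : Alb a b c) =
      ofF ((X * X - (a : F) • (Y * Y)) * f * S0 p1 p2) := by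
  rw [act, mat_ofF (symm_S0 hf), vec_ofF]
  have h1 : (f * S0 p1 p2).map (algebraMap F (Qt a b)) = sm a b (f * S0 p1 p2) := rfl
  rw [h1, hM, pm_frame hX hY hf, ← ofMV_sm]
  congr 1
  funext i
  rw [Matrix.zero_vecMul, Pi.zero_apply, mul_zero]

end F

section F2

variable {F : Type} [Field F] [NeZero (2 : F)] {a b c : Fˣ} {p0 p1 p2 : F}

/-- The reduced norm of the matrices over the quadratic field. -/
theorem nu_pm (hab : Aniso a b) {M : (Matrix (Fin 3) (Fin 3) (Qt a b))ˣ}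
    {X Y : Matrix (Fin 3) (Fin 3) F}
    (hM : (M : Matrix (Fin 3) (Fin 3) (Qt a b)) = pm a b X Y)
    (hX : X * Mp p0 p1 p2 = Mp p0 p1 p2 * X) (hY : Y * Mp p0 p1 p2 = Mp p0 p1 p2 * Y) :
    nu (M : Matrix (Fin 3) (Fin 3) (Qt a b)) = (X * X - (a : F) • (Y * Y)).det := by
  obtain ⟨κ, hκ⟩ := exists_kap hab M
  have h1 := cub_act hab (c := (1 : Fˣ)) M κ hκ (ofF (1 * S0 p1 p2))
  have hr : (X * X - (a : F) • (Y * Y)) * Mp p0 p1 p2 =
      Mp p0 p1 p2 * (X * X - (a : F) • (Y * Y)) :=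
    comm_sub (comm_mul hX hX) (comm_smul _ (comm_mul hY hY))
  rw [act_frame hM hX hY comm_one, Matrix.mul_one, Matrix.one_mul,
    E6I.H319.cub_ofF (symm_S0 hr), E6I.H319.cub_ofF (E6I.S0_transpose _ _), Matrix.det_mul] at h1
  have h2 : (S0 p1 p2).det ≠ 0 := by
    rw [det_S0]
    exact neg_ne_zero.2 one_ne_zero
  exact (mul_right_cancel₀ h2 h1).symm

omit [NeZero (2 : F)] in
theorem fix_iff {g : Alb a b c ≃ₗ[F] Alb a b c} : g ∈ FixK p0 p1 p2 a b c ↔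
    (∀ x, cub (g x) = cub x) ∧ ∀ f : Matrix (Fin 3) (Fin 3) F,
      f * Mp p0 p1 p2 = Mp p0 p1 p2 * f → g (ofF (f * S0 p1 p2)) = ofF (f * S0 p1 p2) := by
  constructor
  · rintro ⟨h1, h2, h3, h4⟩
    refine ⟨h1, fun f hf => ?_⟩
    rw [mul_S0 hf, ofF_add3, map_add, map_add, map_smul, map_smul, map_smul, h2, h3, h4]
  · rintro ⟨h1, h2⟩
    refine ⟨h1, ?_, ?_, ?_⟩
    · have h := h2 1 comm_one
      rwa [Matrix.one_mul] at h
    · have h := h2 (Mp p0 p1 p2) rfl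
      rwa [E6I.Mp_mul_S0] at h
    · have h := h2 (Mp p0 p1 p2 * Mp p0 p1 p2) (Matrix.mul_assoc _ _ _)
      rwa [Matrix.mul_assoc, E6I.Mp_mul_S0, E6I.Mp_mul_S1] at h

theorem comm_cj' {g : Alb a b c ≃ₗ[F] Alb a b c} (hg : g ∈ FixK p0 p1 p2 a b c)
    {v : Matrix (Fin 3) (Fin 3) F} (hv : v.det ≠ 0) (hvM : v * Mp p0 p1 p2 = Mp p0 p1 p2 * v)
    (x : Alb a b c) : g (cj v x) = cj v (g x) := by
  obtain ⟨h1, h2⟩ := fix_iff.1 hg
  refine E6I.comm_cj h1 (E6I.S0_transpose p1 p2) ?_ hv (symm_S0 hvM) ?_ (h2 v hvM) x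
  · rw [det_S0]
    exact neg_ne_zero.mpr one_ne_zero
  · have h := h2 1 comm_one
    rwa [Matrix.one_mul] at h

/-- The data of a conjugation. -/
structure Mult (p0 p1 p2 : F) (X Y : Matrix (Fin 3) (Fin 3) F) (a b : Fˣ)
    (M M' : (Matrix (Fin 3) (Fin 3) (Qt a b))ˣ) (κ : (Qt a b)ˣ) : Prop where
  hX : X * Mp p0 p1 p2 = Mp p0 p1 p2 * X
  hY : Y * Mp p0 p1 p2 = Mp p0 p1 p2 * Y
  hM : (M : Matrix (Fin 3) (Fin 3) (Qt a b)) = pm a b X Y
  hM' : (M' : Matrix (Fin 3) (Fin 3) (Qt a b)) = pm a b X (-Y)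
  hr : (X * X - (a : F) • (Y * Y)).det ≠ 0
  hκ : nrd (κ : Qt a b) = (X * X - (a : F) • (Y * Y)).det

variable {X Y : Matrix (Fin 3) (Fin 3) F} {M M' : (Matrix (Fin 3) (Fin 3) (Qt a b))ˣ}
  {κ : (Qt a b)ˣ}

omit [NeZero (2 : F)] in
theorem Mult.hrM (h : Mult p0 p1 p2 X Y a b M M' κ) : (X * X - (a : F) • (Y * Y)) * Mp p0 p1 p2 =
    Mp p0 p1 p2 * (X * X - (a : F) • (Y * Y)) :=
  comm_sub (comm_mul h.hX h.hX) (comm_smul _ (comm_mul h.hY h.hY))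

omit [NeZero (2 : F)] in
theorem Mult.mulM (h : Mult p0 p1 p2 X Y a b M M' κ) : M * M' = smU a b _ h.hr := by
  apply Units.ext
  rw [Units.val_mul, h.hM, h.hM', pm_mul]
  change _ = sm a b _
  rw [← pm_zero, Matrix.mul_neg, Matrix.mul_neg, smul_neg, ← sub_eq_add_neg,
    comm_all h.hY h.hX, neg_add_cancel]

omit [NeZero (2 : F)] in
theorem Mult.mulM' (h : Mult p0 p1 p2 X Y a b M M' κ) : M' * M = smU a b _ h.hr := by
  apply Units.ext
  rw [Units.val_mul, h.hM, h.hM', pm_mul]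
  change _ = sm a b _
  rw [← pm_zero, Matrix.neg_mul, Matrix.neg_mul, smul_neg, ← sub_eq_add_neg,
    comm_all h.hY h.hX, add_neg_cancel]

/-- The conjugate of a linear map. -/
noncomputable def cnj (M : (Matrix (Fin 3) (Fin 3) (Qt a b))ˣ) (κ : (Qt a b)ˣ) :
    (Alb a b c ≃ₗ[F] Alb a b c) ≃* (Alb a b c ≃ₗ[F] Alb a b c) :=
  MulAut.conj (H64.actL two_ne_zero M κ)

theorem cnj_act (g : Alb a b c ≃ₗ[F] Alb a b c) (x : Alb a b c) :
    cnj M κ g (act M κ x) = act M κ (g x) := by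
  change act M κ (g ((H64.actL two_ne_zero M κ).symm (H64.actL two_ne_zero M κ x))) = _
  rw [LinearEquiv.symm_apply_apply]

theorem act_surj (x : Alb a b c) : ∃ y, act M κ y = x :=
  ⟨(H64.actL two_ne_zero M κ).symm x, (H64.actL two_ne_zero M κ).apply_symm_apply x⟩

theorem act_inj {x y : Alb a b c} (h : act M κ x = act M κ y) : x = y :=
  (H64.actL two_ne_zero M κ).injective h

theorem Mult.act_act' (h : Mult p0 p1 p2 X Y a b M M' κ) (x : Alb a b c) :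
    act M' (star (κ : Qt a b)) (act M κ x) = cj (X * X - (a : F) • (Y * Y)) x := by
  have e : (det (X * X - (a : F) • (Y * Y)) • (1 : Qt a b)) =
      ⟨det (X * X - (a : F) • (Y * Y)), 0, 0, 0⟩ := by
    ext <;> simp
  rw [act_act, h.mulM', cj_eq_act _ h.hr, D4X.H67.star_mul_self', h.hκ, e]

theorem Mult.fix (hab : Aniso a b) (h : Mult p0 p1 p2 X Y a b M M' κ)
    {g : Alb a b c ≃ₗ[F] Alb a b c} :
    cnj M κ g ∈ FixK p0 p1 p2 a b c ↔ g ∈ FixK p0 p1 p2 a b c := by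
  have hnu : nrd (κ : Qt a b) = nu (M : Matrix (Fin 3) (Fin 3) (Qt a b)) := by
    rw [nu_pm hab h.hM h.hX h.hY, h.hκ]
  have hn0 : nu (M : Matrix (Fin 3) (Fin 3) (Qt a b)) ≠ 0 := nu_ne_zero hab M
  rw [fix_iff, fix_iff]
  constructor
  · rintro ⟨h1, h2⟩
    refine ⟨fun x => ?_, fun f hf => ?_⟩
    · have h3 := h1 (act M κ x)
      rw [cnj_act, cub_act hab M κ hnu, cub_act hab M κ hnu] at h3
      exact mul_left_cancel₀ hn0 h3
    · have h3 := h2 _ (comm_mul h.hrM hf)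
      rw [← act_frame h.hM h.hX h.hY hf (κ : Qt a b), cnj_act] at h3
      exact act_inj h3
  · rintro ⟨h1, h2⟩
    refine ⟨fun x => ?_, fun f hf => ?_⟩
    · obtain ⟨y, rfl⟩ := act_surj (M := M) (κ := κ) x
      rw [cnj_act, cub_act hab M κ hnu, cub_act hab M κ hnu, h1]
    · have h4 := comm_inv h.hr h.hrM
      have h5 := act_frame (c := c) h.hM h.hX h.hY (comm_mul h4 hf) (κ : Qt a b)
      rw [← Matrix.mul_assoc _ _ f, Matrix.mul_nonsing_inv _ (isUnit_iff_ne_zero.mpr h.hr),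
        Matrix.one_mul] at h5
      rw [← h5, cnj_act, h2 _ (comm_mul h4 hf)]

/-- Commuting with a map, after conjugation. -/
theorem Mult.comm (hab : Aniso a b) (h : Mult p0 p1 p2 X Y a b M M' κ)
    {g : Alb a b c ≃ₗ[F] Alb a b c} (hg : g ∈ FixK p0 p1 p2 a b c) {J J' : Alb a b c → Alb a b c}
    (hJ : ∀ x, J' x = act M' (star (κ : Qt a b)) (J (act M κ x))) :
    (∀ x, cnj M κ g (J x) = J (cnj M κ g x)) ↔ ∀ x, g (J' x) = J' (g x) := by
  have hg' := (h.fix hab).2 hg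
  -- the second action commutes with the conjugation
  have h1 : ∀ x, g (act M' (star (κ : Qt a b)) x) =
      act M' (star (κ : Qt a b)) (cnj M κ g x) := by
    intro x
    obtain ⟨y, rfl⟩ := act_surj (M := M) (κ := κ) x
    rw [h.act_act', cnj_act, h.act_act', comm_cj' hg h.hr h.hrM]
  have hinj : Function.Injective (act M' (star (κ : Qt a b)) : Alb a b c → Alb a b c) := by
    intro x y hxy
    obtain ⟨x, rfl⟩ := act_surj (M := M) (κ := κ) x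
    obtain ⟨y, rfl⟩ := act_surj (M := M) (κ := κ) y
    rw [h.act_act', h.act_act'] at hxy
    rw [(cjE _ h.hr).injective hxy]
  constructor
  · intro h2 x
    rw [hJ, hJ, h1, h2, cnj_act]
  · intro h2 x
    obtain ⟨x, rfl⟩ := act_surj (M := M) (κ := κ) x
    apply hinj
    rw [← h1, ← hJ, h2, hJ, cnj_act]

end F2

end Vale.Agent.P011.E6W.H196
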