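import Vale.Agent.P011.E6W.H196.ExM
import Vale.Agent.P011.D4.NTS

/-!
Block E6W, the group over the quadratic extension: the arithmetic of the normalisation.
-/

open NumberField

namespace Vale.Agent.P011.E6W.H196

open Vale.Agent.P011.MPQ Vale.Agent.P011.D4

section

variable {k K : Type} [Field k] [NumberField k] [Field K] [NumberField K] [Algebra k K]
  {s : K ≃ₐ[k] K} {th : K} {kap : k}

omit [NumberField k] in
theorem kap_nsq (hk0 : kap ≠ 0) (hth : th * th = algebraMap k K kap) (hs : s th = -th) :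
    ¬ IsSquare kap := by
  rintro ⟨r, hr⟩
  have h1 : (th - algebraMap k K r) * (th + algebraMap k K r) = 0 := by
    have h : algebraMap k K kap = algebraMap k K r * algebraMap k K r := by rw [hr, map_mul]
    linear_combination hth + h
  have h5 : th = 0 := by
    rcases mul_eq_zero.1 h1 with h | h
    · have h4 : th = algebraMap k K r := sub_eq_zero.1 h
      have h5 : s th = th := by rw [h4, s.commutes]
      rw [hs] at h5
      exact self_eq_neg.1 h5.symm
    · have h4 : th = -algebraMap k K r := eq_neg_of_add_eq_zero_left h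
      have h5 : s th = th := by rw [h4, map_neg, s.commutes]
      rw [hs] at h5
      exact self_eq_neg.1 h5.symm
  rw [h5, mul_zero] at hth
  exact hk0 ((map_eq_zero _).1 hth.symm)

/-- The real places over a real place which splits. -/
theorem exists_real (h2 : Module.finrank k K = 2) (hth : th * th = algebraMap k K kap)
    (hkap : ¬ IsSquare kap) {τ : k →+* ℝ} (hτ : 0 < τ kap) :
    ∃ τ' : K →+* ℝ, ∀ x : k, τ' (algebraMap k K x) = τ x := by
  obtain ⟨e, he1, he2⟩ := exists_quadEquiv h2 hth hkap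
  have hr : Real.sqrt (τ kap) * Real.sqrt (τ kap) = τ kap := Real.mul_self_sqrt hτ.le
  let f : QuadraticAlgebra k kap 0 →+* ℝ :=
    { toFun := fun z => τ z.re + τ z.im * Real.sqrt (τ kap)
      map_one' := by
        rw [QuadraticAlgebra.re_one, QuadraticAlgebra.im_one, map_one, map_zero, zero_mul,
          add_zero]
      map_zero' := by
        rw [QuadraticAlgebra.re_zero, QuadraticAlgebra.im_zero, map_zero, zero_mul, add_zero]
      map_add' := fun x y => by
        simp only [QuadraticAlgebra.re_add, QuadraticAlgebra.im_add, map_add, add_mul]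
        ring
      map_mul' := fun x y => by
        simp only [QuadraticAlgebra.re_mul, QuadraticAlgebra.im_mul, map_add, map_mul, zero_mul,
          add_zero]
        linear_combination (-(τ x.im * τ y.im)) * hr }
  refine ⟨f.comp (e.symm : K →+* QuadraticAlgebra k kap 0), fun x => ?_⟩
  change f (e.symm (algebraMap k K x)) = τ x
  rw [← he1, e.symm_apply_apply]
  change τ x + τ 0 * _ = τ x
  rw [map_zero, zero_mul, add_zero]

/-- Squares in the quadratic extension. -/
theorem nsq_quad (h2 : Module.finrank k K = 2) (hth : th * th = algebraMap k K kap)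
    (hkap : ¬ IsSquare kap) {a : k} (ha1 : ¬ IsSquare a) (ha2 : ¬ IsSquare (a * kap)) (x : K) :
    x * x ≠ algebraMap k K a := by
  intro hx
  have hth2 : th ^ 2 = algebraMap k K kap := by rw [pow_two, hth]
  obtain ⟨e, he1, he2⟩ := exists_quadEquiv h2 hth hkap
  obtain ⟨z, rfl⟩ := e.surjective x
  rw [← map_mul, ← he1] at hx
  have h3 := e.injective hx
  have h4 : z.re * z.re + kap * z.im * z.im = a := by
    rw [← QuadraticAlgebra.re_mul, h3]
  have h5 : z.re * z.im + z.im * z.re + 0 * z.im * z.im = 0 := by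
    rw [← QuadraticAlgebra.im_mul, h3]
  have h6 : (2 : k) * (z.re * z.im) = 0 := by linear_combination h5
  rcases mul_eq_zero.1 ((mul_eq_zero.1 h6).resolve_left two_ne_zero) with h | h
  · apply ha2
    exact ⟨kap * z.im, by rw [← h4, h]; ring⟩
  · apply ha1
    exact ⟨z.re, by rw [← h4, h]; ring⟩

omit [NumberField k] in
theorem nrd_pos {a b : kˣ} {τ : K →+* ℝ} (ha : τ (algebraMap k K a) < 0)
    (hb : τ (algebraMap k K b) < 0) {x : Qt (up K a) (up K b)} (hx : nrd x ≠ 0) :
    0 < τ (nrd x) := by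
  have h1 : τ (nrd x) = τ x.re ^ 2 + (-τ (algebraMap k K a)) * τ x.imI ^ 2 +
      (-τ (algebraMap k K b)) * τ x.imJ ^ 2 +
      τ (algebraMap k K a) * τ (algebraMap k K b) * τ x.imK ^ 2 := by
    change τ (x.re ^ 2 - algebraMap k K a * x.imI ^ 2 - algebraMap k K b * x.imJ ^ 2 +
      algebraMap k K a * algebraMap k K b * x.imK ^ 2) = _
    simp only [map_add, map_sub, map_mul, map_pow]
    ring
  have h2 : 0 ≤ τ (nrd x) := by
    rw [h1]
    have h3 := mul_pos_of_neg_of_neg ha hb
    have h4 : 0 ≤ -τ (algebraMap k K a) := by linarith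
    have h5 : 0 ≤ -τ (algebraMap k K b) := by linarith
    positivity
  exact lt_of_le_of_ne h2 (Ne.symm ((map_ne_zero τ).2 hx))

/-- **The arithmetic of the normalisation.** -/
theorem exists_yT (h2 : Module.finrank k K = 2) (hth : th * th = algebraMap k K kap)
    (hs : s th = -th) (hk0 : kap ≠ 0) {a b : kˣ} (ha1 : ¬ IsSquare (a : k))
    (ha2 : ¬ IsSquare ((a : k) * kap))
    {n0 n1 ε : k} {κ : Qt (up K a) (up K b)} (hε : ε ≠ 0) (hκ : nrd κ ≠ 0)
    (hn : algebraMap k K (n0 ^ 2 - kap * a * n1 ^ 2) =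
      algebraMap k K (ε ^ 2) * (nrd κ * s (nrd κ)))
    (hsg : ∀ τ : k →+* ℝ, τ kap < 0 → τ a < 0 → 0 < τ (ε * n0)) :
    ∃ (Y0 Y1 : K) (T : k) (q : Qt a b), T ≠ 0 ∧ nrd q * (ε * T) = 1 ∧
      Y0 ^ 2 - algebraMap k K a * Y1 ^ 2 = algebraMap k K ε * nrd κ * algebraMap k K T ∧
      Y0 * s Y0 - algebraMap k K a * (Y1 * s Y1) = algebraMap k K (n0 * T) ∧
      Y1 * s Y0 - Y0 * s Y1 = th * algebraMap k K (n1 * T) := by
  have hkap : ¬ IsSquare kap := kap_nsq hk0 hth hs
  have hnsq := nsq_quad h2 hth hkap ha1 ha2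
  have hth2 : th ^ 2 = algebraMap k K kap := by rw [pow_two, hth]
  have hth0 : th ≠ 0 := by
    intro h
    rw [h, mul_zero] at hth
    exact hk0 ((map_eq_zero _).1 hth.symm)
  have hεK : algebraMap k K ε ≠ 0 := (map_ne_zero _).2 hε
  -- the element mu0
  obtain ⟨μ, hμ⟩ : ∃ μ : K, μ = algebraMap k K ε * nrd κ := ⟨_, rfl⟩
  have hμ0 : μ ≠ 0 := by rw [hμ]; exact mul_ne_zero hεK hκ
  obtain ⟨m0, m1, hm⟩ := Vale.Agent.P011.Arith.exists_coords h2 hkap hth2 μ
  have hsμ : s μ = algebraMap k K m0 - algebraMap k K m1 * th := by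
    rw [hm, map_add, map_mul, s.commutes, s.commutes, hs]
    ring
  have hN : μ * s μ = algebraMap k K (n0 ^ 2 - kap * a * n1 ^ 2) := by
    rw [hn, hμ, map_mul, s.commutes, map_pow]
    ring
  -- positivity, once the element y is there
  have key : ∀ (Y0 Y1 : K) (T : k), (Y0 ≠ 0 ∨ Y1 ≠ 0) → T ≠ 0 →
      Y0 ^ 2 - algebraMap k K a * Y1 ^ 2 = μ * algebraMap k K T →
      Y0 * s Y0 - algebraMap k K a * (Y1 * s Y1) = algebraMap k K (n0 * T) →
      ∃ q : Qt a b, nrd q * (ε * T) = 1 := by
    intro Y0 Y1 T hY hT e1 e2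
    have hu : ε * T ≠ 0 := mul_ne_zero hε hT
    obtain ⟨q, hq⟩ := exists_nrd (a := a) (b := b) (Units.mk0 _ hu)⁻¹ (fun τ ha hb => by
      rw [Units.val_inv_eq_inv_val, map_inv₀, inv_pos, Units.val_mk0]
      rcases lt_trichotomy (τ kap) 0 with h | h | h
      · -- nonsplit place
        obtain ⟨x0, x1, hx⟩ := Vale.Agent.P011.Arith.exists_coords h2 hkap hth2 Y0
        obtain ⟨y0, y1, hy⟩ := Vale.Agent.P011.Arith.exists_coords h2 hkap hth2 Y1
        have e3 : x0 ^ 2 - kap * x1 ^ 2 - a * (y0 ^ 2 - kap * y1 ^ 2) = n0 * T := by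
          apply (algebraMap k K).injective
          rw [← e2, hx, hy]
          simp only [map_add, map_sub, map_mul, map_pow, s.commutes, hs]
          linear_combination (algebraMap k K x1 ^ 2 - algebraMap k K a * algebraMap k K y1 ^ 2) *
            hth
        have e4 := congrArg τ e3
        simp only [map_sub, map_mul, map_pow] at e4
        have h5 : 0 < τ x0 ^ 2 + (-τ kap) * τ x1 ^ 2 +
            (-τ a) * (τ y0 ^ 2 + (-τ kap) * τ y1 ^ 2) := by
          have h6 : 0 < -τ a := by linarith
          have h7 : 0 < -τ kap := by linarith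
          by_contra h8
          have h9 : τ x0 ^ 2 + (-τ kap) * τ x1 ^ 2 +
            (-τ a) * (τ y0 ^ 2 + (-τ kap) * τ y1 ^ 2) = 0 := le_antisymm (not_lt.1 h8)
              (by positivity)
          have g1 : 0 ≤ τ x0 ^ 2 := sq_nonneg _
          have g2 : 0 ≤ (-τ kap) * τ x1 ^ 2 := by positivity
          have g3 : 0 ≤ (-τ a) * τ y0 ^ 2 := by positivity
          have g4 : 0 ≤ (-τ a) * ((-τ kap) * τ y1 ^ 2) := by positivity
          have q1 : τ x0 ^ 2 = 0 := by nlinarith
          have q2 : (-τ kap) * τ x1 ^ 2 = 0 := by nlinarith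
          have q3 : (-τ a) * τ y0 ^ 2 = 0 := by nlinarith
          have q4 : (-τ a) * ((-τ kap) * τ y1 ^ 2) = 0 := by nlinarith
          have r1 : x0 = 0 := (map_eq_zero τ).1 (pow_eq_zero_iff two_ne_zero |>.1 q1)
          have r2 : x1 = 0 := (map_eq_zero τ).1 (pow_eq_zero_iff two_ne_zero |>.1
            ((mul_eq_zero.1 q2).resolve_left h7.ne'))
          have r3 : y0 = 0 := (map_eq_zero τ).1 (pow_eq_zero_iff two_ne_zero |>.1
            ((mul_eq_zero.1 q3).resolve_left h6.ne'))
          have r4 : y1 = 0 := (map_eq_zero τ).1 (pow_eq_zero_iff two_ne_zero |>.1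
            ((mul_eq_zero.1 ((mul_eq_zero.1 q4).resolve_left h6.ne')).resolve_left h7.ne'))
          rcases hY with h | h
          · exact h (by rw [hx, r1, r2, map_zero, zero_mul, add_zero])
          · exact h (by rw [hy, r3, r4, map_zero, zero_mul, add_zero])
        have h6 : 0 < τ n0 * τ T := by linarith
        have h7 := hsg τ h ha
        rw [map_mul] at h7 ⊢
        have h8 : 0 < (τ ε * τ T) * (τ n0) ^ 2 := by nlinarith
        by_contra h9
        have h10 : (τ ε * τ T) * (τ n0) ^ 2 ≤ 0 :=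
          mul_nonpos_of_nonpos_of_nonneg (not_lt.1 h9) (sq_nonneg _)
        linarith
      · exact absurd ((map_eq_zero _).1 h) hk0
      · -- split place
        obtain ⟨τ', hτ'⟩ := exists_real h2 hth hkap h
        have e3 := congrArg τ' e1
        rw [map_sub, map_mul, map_pow, map_pow, hτ', hμ, map_mul, map_mul, hτ', hτ'] at e3
        have h5 : 0 < τ' (nrd κ) := nrd_pos (by rw [hτ']; exact ha) (by rw [hτ']; exact hb) hκ
        have h6 : 0 ≤ τ' Y0 ^ 2 - τ a * τ' Y1 ^ 2 := by
          have : 0 ≤ -τ a := by linarith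
          have h7 : 0 ≤ (-τ a) * τ' Y1 ^ 2 := by positivity
          nlinarith [sq_nonneg (τ' Y0)]
        rw [map_mul]
        have h7 : 0 ≤ (τ ε * τ T) * τ' (nrd κ) := by nlinarith
        have h8 : τ ε * τ T ≠ 0 := mul_ne_zero ((map_ne_zero _).2 hε) ((map_ne_zero _).2 hT)
        by_contra h9
        have h10 : (τ ε * τ T) * τ' (nrd κ) < 0 :=
          mul_neg_of_neg_of_pos (lt_of_le_of_ne (not_lt.1 h9) h8) h5
        linarith)
    refine ⟨q, ?_⟩
    rw [hq, Units.val_inv_eq_inv_val, Units.val_mk0, inv_mul_cancel₀ hu]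
  by_cases hc : n1 = 0 ∧ μ = -algebraMap k K n0
  · -- the exceptional case
    obtain ⟨hn1, hμn⟩ := hc
    have hn0 : n0 ≠ 0 := by
      intro h
      apply hμ0
      rw [hμn, h, map_zero, neg_zero]
    have hT : -(kap / n0) ≠ 0 := neg_ne_zero.2 (div_ne_zero hk0 hn0)
    have e1 : th ^ 2 - algebraMap k K a * 0 ^ 2 = μ * algebraMap k K (-(kap / n0)) := by
      rw [hth2, hμn, neg_mul, ← map_mul, ← map_neg]
      rw [zero_pow two_ne_zero, mul_zero, sub_zero]
      congr 1
      field_simp
    have e2 : th * s th - algebraMap k K a * (0 * s 0) = algebraMap k K (n0 * -(kap / n0)) := by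
      rw [hs, zero_mul, mul_zero, sub_zero, mul_neg, hth, ← map_neg]
      congr 1
      field_simp
    obtain ⟨q, hq⟩ := key th 0 (-(kap / n0)) (Or.inl hth0) hT e1 e2
    refine ⟨th, 0, -(kap / n0), q, hT, hq, ?_, e2, ?_⟩
    · rw [e1, hμ]
    · rw [hn1, map_zero, zero_mul, mul_zero, sub_zero, zero_mul, map_zero, mul_zero]
  · -- the general case: y = n + mu0
    have hY : algebraMap k K n0 + μ ≠ 0 ∨ th * algebraMap k K n1 ≠ 0 := by
      by_contra h
      push Not at h
      apply hc
      refine ⟨?_, eq_neg_of_add_eq_zero_right h.1⟩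
      rcases mul_eq_zero.1 h.2 with h3 | h3
      · exact absurd h3 hth0
      · exact (map_eq_zero _).1 h3
    have e1 : (algebraMap k K n0 + μ) ^ 2 - algebraMap k K a * (th * algebraMap k K n1) ^ 2 =
        μ * algebraMap k K (2 * n0 + 2 * m0) := by
      have h3 : algebraMap k K n0 ^ 2 - algebraMap k K kap * algebraMap k K a *
          algebraMap k K n1 ^ 2 = μ * s μ := by
        rw [hN, map_sub, map_mul, map_mul, map_pow, map_pow]
      have h4 : μ + s μ = algebraMap k K (2 * m0) := by
        rw [hsμ, map_mul, map_ofNat]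
        linear_combination hm
      rw [map_add, ← h4, map_mul, map_ofNat]
      linear_combination h3 - algebraMap k K a * algebraMap k K n1 ^ 2 * hth
    have e2 : (algebraMap k K n0 + μ) * s (algebraMap k K n0 + μ) -
        algebraMap k K a * (th * algebraMap k K n1 * s (th * algebraMap k K n1)) =
        algebraMap k K (n0 * (2 * n0 + 2 * m0)) := by
      have h3 : algebraMap k K n0 ^ 2 - algebraMap k K kap * algebraMap k K a *
          algebraMap k K n1 ^ 2 = μ * s μ := by
        rw [hN, map_sub, map_mul, map_mul, map_pow, map_pow]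
      have h4 : μ + s μ = algebraMap k K (2 * m0) := by
        rw [hsμ, map_mul, map_ofNat]
        linear_combination hm
      rw [map_mul (algebraMap k K) n0, map_add (algebraMap k K), ← h4,
        map_mul (algebraMap k K) 2 n0, map_ofNat, map_add, map_mul, s.commutes, s.commutes, hs]
      linear_combination -h3 + algebraMap k K a * algebraMap k K n1 ^ 2 * hth
    have e3 : th * algebraMap k K n1 * s (algebraMap k K n0 + μ) -
        (algebraMap k K n0 + μ) * s (th * algebraMap k K n1) =
        th * algebraMap k K (n1 * (2 * n0 + 2 * m0)) := by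
      have h4 : μ + s μ = algebraMap k K (2 * m0) := by
        rw [hsμ, map_mul, map_ofNat]
        linear_combination hm
      rw [map_mul (algebraMap k K) n1, map_add (algebraMap k K), ← h4, map_mul (algebraMap k K) 2 n0,
        map_ofNat, map_add, map_mul, s.commutes, s.commutes, hs]
      ring
    have hT : 2 * n0 + 2 * m0 ≠ 0 := by
      intro h
      rw [h, map_zero, mul_zero] at e1
      by_cases h1 : th * algebraMap k K n1 = 0
      · rw [h1, zero_pow two_ne_zero, mul_zero, sub_zero] at e1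
        rcases hY with h3 | h3
        · exact h3 (pow_eq_zero_iff two_ne_zero |>.1 e1)
        · exact h3 h1
      · apply hnsq ((algebraMap k K n0 + μ) / (th * algebraMap k K n1))
        rw [← pow_two, div_pow, div_eq_iff (pow_ne_zero 2 h1)]
        linear_combination e1
    obtain ⟨q, hq⟩ := key _ _ _ hY hT e1 e2
    refine ⟨_, _, _, q, hT, hq, ?_, e2, e3⟩
    rw [e1, hμ]

end

end Vale.Agent.P011.E6W.H196
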