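import Vale.Agent.P011.E6W.H196.KTb
import Vale.Agent.P011.E6W.H196.KTc
import Vale.Agent.P011.E6W.H196.KTd
import Vale.Agent.P011.E6W.H7.Kl7
import Vale.Agent.P011.D4Y.H862.Short

/-!
Block E6W, the group over the quadratic extension: the case where the pure quaternion is the
first generator.
-/

open NumberField Matrix Polynomial

namespace Vale.Agent.P011.E6W.H196

open Vale.Agent.P011.MPQ hiding mat
open Vale.Agent.P011.D4 Vale.Agent.P011.D4.Oct Vale.Agent.P011.E6 Vale.Agent.P011.E6.Alb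
open Vale.Agent.P011.E6I (MQ toMQ Mp S0 S1 S2 FixK cj cjE)
open Vale.Agent.P011.E6I.Fx
open Vale.Agent.P011.E6W.H7 (sm smU GK JK gk_top)
open Vale.Agent.P011.E6W.H684 (GKJ)

section

variable {k K : Type} [Field k] [Field K] [Algebra k K] {s : K ≃ₐ[k] K} {a b c : kˣ}

theorem map_pm (X Y : Matrix (Fin 3) (Fin 3) K) :
    (pm (up K a) (up K b) X Y).map (qmap s) = pm (up K a) (up K b) (X.map s) (Y.map s) := by
  apply Matrix.ext
  intro i j
  rw [Matrix.map_apply, pm_apply, pm_apply]
  apply QuaternionAlgebra.ext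
  · rfl
  · rfl
  · exact map_zero s
  · exact map_zero s

theorem amap_amap (hs2 : ∀ x, s (s x) = x) (x : AlbL K a b c) : amap s (amap s x) = x := by
  apply Alb.ext
  · exact hs2 _
  · exact hs2 _
  · exact hs2 _
  · apply Oct.ext <;> apply QuaternionAlgebra.ext <;> exact hs2 _
  · apply Oct.ext <;> apply QuaternionAlgebra.ext <;> exact hs2 _
  · apply Oct.ext <;> apply QuaternionAlgebra.ext <;> exact hs2 _

/-- **Conjugation of the groups.** -/
theorem top_conj [NeZero (2 : K)] (hab : Aniso (up K a) (up K b)) {p0 p1 p2 : k}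
    {X Y : Matrix (Fin 3) (Fin 3) K} {M M' : (MQ K a b)ˣ} {κ : (Qt (up K a) (up K b))ˣ}
    (h : Mult (algebraMap k K p0) (algebraMap k K p1) (algebraMap k K p2) X Y (up K a) (up K b)
      M M' κ) (m : (MQ K a b)ˣ) (κ0 : Qt (up K a) (up K b))
    (htop : ∀ N : Subgroup (GKJ s p0 p1 p2 c (M' * m * H64.umap s M)
      (star (κ : Qt (up K a) (up K b)) * κ0 * qmap s (κ : Qt (up K a) (up K b)))),
      N.index ≠ 0 → N = ⊤) (N : Subgroup (GKJ s p0 p1 p2 c m κ0)) (hN : N.index ≠ 0) :
    N = ⊤ := by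
  refine top_of_equiv (cnj M κ) (fun g => ?_) htop N hN
  constructor
  · rintro ⟨h1, h2⟩
    refine ⟨(h.fix hab).2 h1, ?_⟩
    refine (h.comm hab h1 (J := fun x => act m κ0 (amap s x)) (J' := fun x =>
      act (M' * m * H64.umap s M)
        (star (κ : Qt (up K a) (up K b)) * κ0 * qmap s (κ : Qt (up K a) (up K b)))
        (amap s x)) fun x => ?_).2 h2
    rw [amap_act, act_act, act_act, mul_assoc, mul_assoc]
  · rintro ⟨h1, h2⟩
    have h1' := (h.fix hab).1 h1
    refine ⟨h1', ?_⟩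
    refine (h.comm hab h1' (J := fun x => act m κ0 (amap s x)) (J' := fun x =>
      act (M' * m * H64.umap s M)
        (star (κ : Qt (up K a) (up K b)) * κ0 * qmap s (κ : Qt (up K a) (up K b)))
        (amap s x)) fun x => ?_).1 h2
    rw [amap_act, act_act, act_act, mul_assoc, mul_assoc]

end

section pmalg

variable {F : Type} [Field F] {a b : Fˣ}

theorem pm_scalar_mul (s t : F) (X Y : Matrix (Fin 3) (Fin 3) F) :
    pm a b (s • 1) (t • 1) * pm a b X Y =
      pm a b (s • X + ((a : F) * t) • Y) (s • Y + t • X) := by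
  rw [pm_mul]
  congr 1
  · rw [Matrix.smul_mul, Matrix.smul_mul, Matrix.one_mul, Matrix.one_mul, smul_smul]
  · rw [Matrix.smul_mul, Matrix.smul_mul, Matrix.one_mul, Matrix.one_mul]

theorem mul_pm_scalar (s t : F) (X Y : Matrix (Fin 3) (Fin 3) F) :
    pm a b X Y * pm a b (s • 1) (t • 1) = pm a b (s • 1) (t • 1) * pm a b X Y := by
  rw [pm_mul, pm_mul]
  congr 1
  · rw [Matrix.smul_mul, Matrix.smul_mul, Matrix.mul_smul, Matrix.mul_smul, Matrix.one_mul,
      Matrix.one_mul, Matrix.mul_one, Matrix.mul_one]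
  · rw [Matrix.smul_mul, Matrix.smul_mul, Matrix.mul_smul, Matrix.mul_smul, Matrix.one_mul,
      Matrix.one_mul, Matrix.mul_one, Matrix.mul_one, add_comm]

end pmalg

end Vale.Agent.P011.E6W.H196
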