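import Vale.Agent.P011.E6W.H196.KTe

/-!
Block E6W, the group over the quadratic extension: the case where the pure quaternion is the
first generator, the theorem.
-/

open NumberField Matrix Polynomial

namespace Vale.Agent.P011.E6W.H196

open Vale.Agent.P011.MPQ hiding mat
open Vale.Agent.P011.D4 Vale.Agent.P011.D4.Oct Vale.Agent.P011.E6 Vale.Agent.P011.E6.Alb
open Vale.Agent.P011.E6I (MQ toMQ Mp S0 S1 S2 FixK cj cjE)
open Vale.Agent.P011.E6I.Fx
open Vale.Agent.P011.E6W.H7 (sm smU sm_mul sm_one GK JK gk_top)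
open Vale.Agent.P011.E6W.H684 (GKJ)

section units

variable {F : Type} [Field F] {a b : Fˣ} {p0 p1 p2 : F}

theorem exists_unit_qt {x : Qt a b} (hx : nrd x ≠ 0) : ∃ u : (Qt a b)ˣ, (u : Qt a b) = x := by
  have h1 : star x * x = nrd x • (1 : Qt a b) := D4X.H67.star_mul_self' x
  have h2 : x * star x = nrd x • (1 : Qt a b) := by
    have h := D4X.H67.star_mul_self' (star x)
    rw [star_star] at h
    rw [h]
    congr 1
    simp [nrd]
  refine ⟨⟨x, (nrd x)⁻¹ • star x, ?_, ?_⟩, rfl⟩
  · rw [mul_smul_comm, h2, smul_smul, inv_mul_cancel₀ hx, one_smul]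
  · rw [smul_mul_assoc, h1, smul_smul, inv_mul_cancel₀ hx, one_smul]

theorem exists_unit_pm {X Y : Matrix (Fin 3) (Fin 3) F}
    (hX : X * Mp p0 p1 p2 = Mp p0 p1 p2 * X) (hY : Y * Mp p0 p1 p2 = Mp p0 p1 p2 * Y)
    (hr : (X * X - (a : F) • (Y * Y)).det ≠ 0) :
    ∃ M : (Matrix (Fin 3) (Fin 3) (Qt a b))ˣ,
      (M : Matrix (Fin 3) (Fin 3) (Qt a b)) = pm a b X Y := by
  obtain ⟨r, hr'⟩ : ∃ r, r = X * X - (a : F) • (Y * Y) := ⟨_, rfl⟩
  have hrM : r * Mp p0 p1 p2 = Mp p0 p1 p2 * r := by
    rw [hr']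
    exact comm_sub (comm_mul hX hX) (comm_smul _ (comm_mul hY hY))
  rw [← hr'] at hr
  have hu : IsUnit r.det := isUnit_iff_ne_zero.mpr hr
  have h1 : pm a b X Y * pm a b X (-Y) = pm a b r 0 := by
    rw [pm_mul, hr', Matrix.mul_neg, Matrix.mul_neg, smul_neg, ← sub_eq_add_neg,
      comm_all hY hX, neg_add_cancel]
  have h2 : pm a b X (-Y) * pm a b X Y = pm a b r 0 := by
    rw [pm_mul, hr', Matrix.neg_mul, Matrix.neg_mul, smul_neg, ← sub_eq_add_neg,
      comm_all hY hX, add_neg_cancel]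
  have hi := comm_inv hr hrM
  have h3 : pm a b r 0 * pm a b r⁻¹ 0 = 1 := by
    rw [pm_mul, Matrix.mul_nonsing_inv _ hu, Matrix.zero_mul, smul_zero, add_zero,
      Matrix.mul_zero, Matrix.zero_mul, add_zero, pm_one]
  have h4 : pm a b r⁻¹ 0 * pm a b X Y = pm a b X Y * pm a b r⁻¹ 0 := by
    rw [pm_mul, pm_mul, Matrix.zero_mul, Matrix.zero_mul, Matrix.mul_zero, Matrix.mul_zero,
      comm_all hi hX, comm_all hi hY]
    simp
  refine ⟨⟨pm a b X Y, pm a b X (-Y) * pm a b r⁻¹ 0, ?_, ?_⟩, rfl⟩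
  · rw [← Matrix.mul_assoc, h1, h3]
  · rw [Matrix.mul_assoc, h4, ← Matrix.mul_assoc, h2, h3]

end units

section phi

variable {k K : Type} [Field k] [Field K] [Algebra k K] {th : K} {kap : k} {a b : kˣ}

/-- The element `A + th i B`. -/
def ph3 (th : K) (a b : kˣ) (A B : Matrix (Fin 3) (Fin 3) k) : MQ K a b :=
  pm (up K a) (up K b) (A.map (algebraMap k K)) (th • B.map (algebraMap k K))

theorem ph3_mul (hth : th * th = algebraMap k K kap) (A B A' B' : Matrix (Fin 3) (Fin 3) k) :
    ph3 th a b A B * ph3 th a b A' B' =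
      ph3 th a b (A * A' + (kap * a) • (B * B')) (A * B' + B * A') := by
  rw [ph3, ph3, ph3, pm_mul]
  congr 1
  · ext i j : 1
    simp only [Matrix.add_apply, Matrix.smul_apply, Matrix.mul_apply, Matrix.map_apply,
      Fin.sum_univ_three, smul_eq_mul, map_add, map_mul]
    change _ + algebraMap k K a * _ = _
    linear_combination (algebraMap k K a * (algebraMap k K (B i 0) * algebraMap k K (B' 0 j) +
      algebraMap k K (B i 1) * algebraMap k K (B' 1 j) +
      algebraMap k K (B i 2) * algebraMap k K (B' 2 j))) * hth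
  · ext i j : 1
    simp only [Matrix.add_apply, Matrix.smul_apply, Matrix.mul_apply, Matrix.map_apply,
      Fin.sum_univ_three, smul_eq_mul, map_add, map_mul]
    ring

theorem scalar_ph3 (hth : th * th = algebraMap k K kap) (x y : k)
    (P R : Matrix (Fin 3) (Fin 3) k) :
    pm (up K a) (up K b) (algebraMap k K x • 1) ((-(th * algebraMap k K y)) • 1) *
      ph3 th a b P R = ph3 th a b (x • P - (kap * a * y) • R) (x • R - y • P) := by
  rw [ph3, ph3, pm_scalar_mul]
  congr 1
  · ext i j : 1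
    simp only [Matrix.add_apply, Matrix.smul_apply, Matrix.map_apply, Matrix.sub_apply,
      smul_eq_mul, map_sub, map_mul]
    change _ + algebraMap k K a * _ * _ = _
    linear_combination (-(algebraMap k K a * algebraMap k K y * algebraMap k K (R i j))) * hth
  · ext i j : 1
    simp only [Matrix.add_apply, Matrix.smul_apply, Matrix.map_apply, Matrix.sub_apply,
      smul_eq_mul, map_sub, map_mul]
    ring

theorem map_comm {p0 p1 p2 : k} {A : Matrix (Fin 3) (Fin 3) k}
    (hA : A * Mp p0 p1 p2 = Mp p0 p1 p2 * A) : A.map (algebraMap k K) *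
      Mp (algebraMap k K p0) (algebraMap k K p1) (algebraMap k K p2) =
      Mp (algebraMap k K p0) (algebraMap k K p1) (algebraMap k K p2) *
        A.map (algebraMap k K) := by
  have h1 : Mp (algebraMap k K p0) (algebraMap k K p1) (algebraMap k K p2) =
      (Mp p0 p1 p2).map (algebraMap k K) := by
    ext i j
    fin_cases i <;> fin_cases j <;> simp [Mp]
  rw [h1, ← Matrix.map_mul, ← Matrix.map_mul, hA]

end phi

section main

variable {k K : Type} [Field k] [NumberField k] [Field K] [NumberField K] [Algebra k K]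
  {s : K ≃ₐ[k] K} {th : K} {kap : k}

theorem s_s (h2 : Module.finrank k K = 2) (hth : th * th = algebraMap k K kap)
    (hs : s th = -th) (hkap : ¬ IsSquare kap) (x : K) : s (s x) = x := by
  obtain ⟨u, v, h⟩ := Vale.Agent.P011.Arith.exists_coords h2 hkap
    (by rw [pow_two, hth] : th ^ 2 = algebraMap k K kap) x
  rw [h]
  simp only [map_add, map_mul, s.commutes, hs, map_neg, neg_neg]

/-- The element `y nbar phi` is a unit, and its norm. -/
theorem norm_mu (hth : th * th = algebraMap k K kap) {a : kˣ} {p0 p1 p2 : k}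
    {A B : Matrix (Fin 3) (Fin 3) k}
    (hA : A * Mp p0 p1 p2 = Mp p0 p1 p2 * A) (hB : B * Mp p0 p1 p2 = Mp p0 p1 p2 * B)
    (c0 c1 : K) {X Y : Matrix (Fin 3) (Fin 3) K}
    (hX : X = c0 • A.map (algebraMap k K) + (((up K a : Kˣ) : K) * c1) •
      (th • B.map (algebraMap k K)))
    (hY : Y = c0 • (th • B.map (algebraMap k K)) + c1 • A.map (algebraMap k K)) :
    X * X - ((up K a : Kˣ) : K) • (Y * Y) = (c0 ^ 2 - algebraMap k K a * c1 ^ 2) •
      (A * A - (kap * a) • (B * B)).map (algebraMap k K) := by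
  have hAB : (B * A).map (algebraMap k K) = (A * B).map (algebraMap k K) := by
    rw [comm_all hA hB]
  rw [Matrix.map_mul, Matrix.map_mul] at hAB
  have h1 : (A * A - (kap * a) • (B * B)).map (algebraMap k K) =
      A.map (algebraMap k K) * A.map (algebraMap k K) - algebraMap k K (kap * a) •
        (B.map (algebraMap k K) * B.map (algebraMap k K)) := by
    rw [← Matrix.map_mul, ← Matrix.map_mul]
    ext i j : 1
    simp only [Matrix.map_apply, Matrix.sub_apply, Matrix.smul_apply, smul_eq_mul, map_sub,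
      map_mul]
  rw [h1, hX, hY]
  have e : ((up K a : Kˣ) : K) = algebraMap k K a := rfl
  rw [e]
  obtain ⟨U, hU⟩ : ∃ U, U = A.map (algebraMap k K) := ⟨_, rfl⟩
  obtain ⟨V, hV⟩ : ∃ V, V = B.map (algebraMap k K) := ⟨_, rfl⟩
  rw [← hU, ← hV] at hAB ⊢
  simp only [Matrix.add_mul, Matrix.mul_add, Matrix.smul_mul, Matrix.mul_smul, smul_smul,
    hAB, smul_add, smul_sub]
  ext i j : 1
  simp only [Matrix.add_apply, Matrix.sub_apply, Matrix.smul_apply, smul_eq_mul, map_mul]
  linear_combination (algebraMap k K a ^ 2 * c1 ^ 2 - algebraMap k K a * c0 ^ 2) *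
    (V * V) i j * hth

end main

end Vale.Agent.P011.E6W.H196
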