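import Vale.Agent.P011.D4.NTS
import Vale.Agent.P011.D4.Up

/-!
Block E6W: hermitian quaternions of reduced norm one over a quadratic extension.
-/

open NumberField

namespace Vale.Agent.P011.E6W.H196

open Vale.Agent.P011.MPQ Vale.Agent.P011.D4

section

variable {k K : Type} [Field k] [NumberField k] [Field K] [Algebra k K] {s : K ≃ₐ[k] K}
  {a b : kˣ}

omit [NumberField k] in
theorem nrd_qup' (r : Qt a b) : nrd (qup K r) = algebraMap k K (nrd r) := by
  simp [nrd, qup]

omit [NumberField k] in
/-- Hermitian quaternions of reduced norm one are norms, if one plus the trace is. -/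
theorem herm_of {t : Qt (up K a) (up K b)} {t0 : k} (ht0 : t.re = algebraMap k K t0)
    (hst : qmap s (star t) = t) (hn : nrd t = 1) {r : Qt a b}
    (hr : nrd r * (2 * (1 + t0)) = 1) :
    ∃ y : Qt (up K a) (up K b), nrd y = 1 ∧ qmap s (star y) * y = t := by
  have hn' : t.re ^ 2 - algebraMap k K a * t.imI ^ 2 - algebraMap k K b * t.imJ ^ 2 +
      algebraMap k K a * algebraMap k K b * t.imK ^ 2 = 1 := hn
  have h1 : nrd (1 + t) = algebraMap k K (2 * (1 + t0)) := by
    rw [map_mul, map_add, map_one, map_ofNat, ← ht0]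
    simp only [nrd, QuaternionAlgebra.re_add, QuaternionAlgebra.imI_add,
      QuaternionAlgebra.imJ_add, QuaternionAlgebra.imK_add, QuaternionAlgebra.re_one,
      QuaternionAlgebra.imI_one, QuaternionAlgebra.imJ_one, QuaternionAlgebra.imK_one, zero_add]
    change (1 + t.re) ^ 2 - algebraMap k K a * t.imI ^ 2 - algebraMap k K b * t.imJ ^ 2 +
      algebraMap k K a * algebraMap k K b * t.imK ^ 2 = _
    linear_combination hn'
  have h2 : (1 + t) * (1 + t) = algebraMap k K (2 * (1 + t0)) • t := by
    have h3 : t * t = (2 * t.re) • t - 1 := by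
      ext <;> simp
      · linear_combination -hn'
      · ring
      · ring
      · ring
    have h4 : (1 + t) * (1 + t) = 1 + 2 • t + t * t := by noncomm_ring
    rw [map_mul, map_add, map_one, map_ofNat, ← ht0, h4, h3, mul_add, add_smul, mul_one]
    rw [two_smul, two_smul]
    abel
  refine ⟨qup K r * (1 + t), ?_, ?_⟩
  · rw [nrd_mul, h1, nrd_qup', ← map_mul, hr, map_one]
  · have h3 : star (qup K r) * qup K r = algebraMap k K (nrd r) • 1 := by
      rw [← nrd_qup']
      ext <;> simp [nrd] <;> ring
    have h4 : qmap s (star (1 + t)) = 1 + t := by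
      rw [star_add, star_one, qmap_add, qmap_one, hst]
    have h5 : qmap s (star (qup K r)) = star (qup K r) := by rw [qmap_star, qmap_qup]
    rw [star_mul, qmap_mul, h4, h5, mul_assoc, ← mul_assoc (star (qup K r)), h3, smul_mul_assoc,
      one_mul, mul_smul_comm, h2, smul_smul, ← map_mul, hr, map_one, one_smul]

omit [NumberField k] in
/-- Minus one as a norm. -/
theorem herm_neg {th : K} {kap : k} (hth : th * th = algebraMap k K kap) (hs : s th = -th)
    {q : Qt a b} (hq : kap * nrd q = 1) :
    ∃ y : Qt (up K a) (up K b), nrd y = 1 ∧ qmap s (star y) * y = -1 := by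
  refine ⟨th • qup K q, ?_, ?_⟩
  · have h1 : nrd (th • qup K q) = th * th * nrd (qup K q) := by
      simp only [nrd, QuaternionAlgebra.re_smul, QuaternionAlgebra.imI_smul,
        QuaternionAlgebra.imJ_smul, QuaternionAlgebra.imK_smul, smul_eq_mul]
      ring
    rw [h1, hth, nrd_qup', ← map_mul, hq, map_one]
  · have h3 : star (qup K q) * qup K q = algebraMap k K (nrd q) • 1 := by
      rw [← nrd_qup']
      ext <;> simp [nrd] <;> ring
    have h5 : qmap s (star (qup K q)) = star (qup K q) := by rw [qmap_star, qmap_qup]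
    rw [QuaternionAlgebra.star_smul, qmap_smul, h5, hs, smul_mul_smul_comm, h3, smul_smul,
      neg_mul, hth, neg_mul, ← map_mul, hq, map_one, neg_smul, one_smul]

/-- **Hermitian quaternions of reduced norm one are norms of elements of reduced norm one.** -/
theorem exists_herm [NumberField K] (h2 : Module.finrank k K = 2) {th : K} {kap : kˣ}
    (hth : th * th = algebraMap k K kap) (hs : s th = -th) (hab : Aniso (up K a) (up K b))
    {t : Qt (up K a) (up K b)} (hst : qmap s (star t) = t) (hn : nrd t = 1)
    (hre : ∀ t0 : k, algebraMap k K t0 = t.re → ∀ τ : k →+* ℝ, τ a < 0 → τ b < 0 → τ kap < 0 →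
      0 < τ t0) :
    ∃ y : Qt (up K a) (up K b), nrd y = 1 ∧ qmap s (star y) * y = t := by
  have hc : CharZero K := charZero_of_injective_algebraMap (algebraMap k K).injective
  have hkap : ¬ IsSquare (kap : k) := by
    rintro ⟨r, hr⟩
    have h1 : (th - algebraMap k K r) * (th + algebraMap k K r) = 0 := by
      have h : algebraMap k K kap = algebraMap k K r * algebraMap k K r := by rw [hr, map_mul]
      linear_combination hth + h
    have h5 : th = 0 := by
      rcases mul_eq_zero.1 h1 with h | h
      · have h4 : th = algebraMap k K r := sub_eq_zero.1 h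
        have h5 : s th = th := by rw [h4, s.commutes]
        rw [hs] at h5
        exact self_eq_neg.1 h5.symm
      · have h4 : th = -algebraMap k K r := eq_neg_of_add_eq_zero_left h
        have h5 : s th = th := by rw [h4, map_neg, s.commutes]
        rw [hs] at h5
        exact self_eq_neg.1 h5.symm
    have h6 : (kap : k) = 0 := by
      rw [h5, mul_zero] at hth
      exact (map_eq_zero _).1 hth.symm
    exact kap.ne_zero h6
  have hth2 : th ^ 2 = algebraMap k K kap := by rw [pow_two, hth]
  have c1 : ∀ z : K, s z = z → ∃ u : k, z = algebraMap k K u := by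
    intro z hz
    obtain ⟨u, v, h⟩ := Vale.Agent.P011.Arith.exists_coords h2 hkap hth2 z
    refine ⟨u, ?_⟩
    rw [h, map_add, map_mul, s.commutes, s.commutes, hs] at hz
    have h3 : (2 : K) * (algebraMap k K v * th) = 0 := by linear_combination -hz
    rw [h, (mul_eq_zero.1 h3).resolve_left two_ne_zero, add_zero]
  have c2 : ∀ z : K, s z = -z → ∃ v : k, z = algebraMap k K v * th := by
    intro z hz
    obtain ⟨u, v, h⟩ := Vale.Agent.P011.Arith.exists_coords h2 hkap hth2 z
    refine ⟨v, ?_⟩
    rw [h, map_add, map_mul, s.commutes, s.commutes, hs] at hz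
    have h3 : (2 : K) * algebraMap k K u = 0 := by linear_combination hz
    rw [h, (mul_eq_zero.1 h3).resolve_left two_ne_zero, zero_add]
  obtain ⟨t0, ht0⟩ := c1 t.re (by
    have h := congrArg QuaternionAlgebra.re hst
    simpa using h)
  obtain ⟨t1, ht1⟩ := c2 t.imI (by
    have h : s (-t.imI) = t.imI := congrArg QuaternionAlgebra.imI hst
    rw [map_neg] at h
    rw [← h, neg_neg, h])
  obtain ⟨t2, ht2⟩ := c2 t.imJ (by
    have h : s (-t.imJ) = t.imJ := congrArg QuaternionAlgebra.imJ hst
    rw [map_neg] at h
    rw [← h, neg_neg, h])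
  obtain ⟨t3, ht3⟩ := c2 t.imK (by
    have h : s (-t.imK) = t.imK := congrArg QuaternionAlgebra.imK hst
    rw [map_neg] at h
    rw [← h, neg_neg, h])
  have hn' : t0 ^ 2 + kap * (-(a : k) * t1 ^ 2 + -(b : k) * t2 ^ 2 + a * b * t3 ^ 2) = 1 := by
    apply (algebraMap k K).injective
    have h : t.re ^ 2 - algebraMap k K a * t.imI ^ 2 - algebraMap k K b * t.imJ ^ 2 +
      algebraMap k K a * algebraMap k K b * t.imK ^ 2 = 1 := hn
    rw [ht0, ht1, ht2, ht3] at h
    simp only [map_add, map_mul, map_pow, map_neg, map_one]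
    rw [← hth]
    linear_combination h
  by_cases h0 : 1 + t0 = 0
  · have h1 : (1 : Qt (up K a) (up K b)) + t = 0 := by
      apply hab
      have h : t.re ^ 2 - algebraMap k K a * t.imI ^ 2 - algebraMap k K b * t.imJ ^ 2 +
        algebraMap k K a * algebraMap k K b * t.imK ^ 2 = 1 := hn
      have h3 : t.re = -1 := by
        rw [ht0, eq_neg_of_add_eq_zero_right h0, map_neg, map_one]
      simp only [nrd, QuaternionAlgebra.re_add, QuaternionAlgebra.imI_add,
        QuaternionAlgebra.imJ_add, QuaternionAlgebra.imK_add, QuaternionAlgebra.re_one,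
        QuaternionAlgebra.imI_one, QuaternionAlgebra.imJ_one, QuaternionAlgebra.imK_one, zero_add]
      change (1 + t.re) ^ 2 - algebraMap k K a * t.imI ^ 2 - algebraMap k K b * t.imJ ^ 2 +
        algebraMap k K a * algebraMap k K b * t.imK ^ 2 = _
      rw [h3] at h ⊢
      linear_combination h
    obtain ⟨q, hq⟩ := exists_nrd (a := a) (b := b) kap⁻¹ (fun τ ha hb => by
      rw [Units.val_inv_eq_inv_val, map_inv₀, inv_pos]
      rcases lt_trichotomy (τ kap) 0 with h | h | h
      · have h4 := hre t0 ht0.symm τ ha hb h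
        rw [eq_neg_of_add_eq_zero_right h0, map_neg, map_one] at h4
        linarith
      · exact absurd ((map_eq_zero _).1 h) kap.ne_zero
      · exact h)
    obtain ⟨y, hy1, hy2⟩ := herm_neg (a := a) (b := b) hth hs (q := q) (by
      rw [hq, Units.val_inv_eq_inv_val, mul_inv_cancel₀ kap.ne_zero])
    exact ⟨y, hy1, by rw [hy2, eq_neg_of_add_eq_zero_right h1]⟩
  · have hu : 2 * (1 + t0) ≠ 0 := mul_ne_zero two_ne_zero h0
    obtain ⟨q, hq⟩ := exists_nrd (a := a) (b := b) (Units.mk0 _ hu)⁻¹ (fun τ ha hb => by
      rw [Units.val_inv_eq_inv_val, map_inv₀, inv_pos, Units.val_mk0, map_mul, map_add, map_one,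
        map_ofNat]
      rcases lt_trichotomy (τ kap) 0 with h | h | h
      · have h4 := hre t0 ht0.symm τ ha hb h
        linarith
      · exact absurd ((map_eq_zero _).1 h) kap.ne_zero
      · have h4 := congrArg τ hn'
        simp only [map_add, map_mul, map_pow, map_neg, map_one] at h4
        have h5 : 0 ≤ τ kap * (-τ a * τ t1 ^ 2 + -τ b * τ t2 ^ 2 + τ a * τ b * τ t3 ^ 2) := by
          have h6 : 0 < τ a * τ b := mul_pos_of_neg_of_neg ha hb
          have h7 : 0 ≤ -τ a := by linarith
          have h8 : 0 ≤ -τ b := by linarith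
          positivity
        have h6 : τ t0 ^ 2 ≤ 1 := by linarith
        have h7 : -1 ≤ τ t0 := (abs_le.1 ((sq_le_one_iff_abs_le_one _).1 h6)).1
        have h8 : τ t0 ≠ -1 := by
          intro h9
          apply h0
          apply τ.injective
          rw [map_add, map_one, h9, map_zero]
          ring
        have h9 : -1 < τ t0 := lt_of_le_of_ne h7 (Ne.symm h8)
        linarith)
    exact herm_of ht0 hst hn (r := q) (by
      rw [hq, Units.val_inv_eq_inv_val, Units.val_mk0, inv_mul_cancel₀ hu])

end

end Vale.Agent.P011.E6W.H196
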