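import Vale.Agent.P011.E6W.H196.KTf
import Vale.Agent.P011.E6W.H196.Nrm

/-!
Block E6W, the group over the quadratic extension: the case where the pure quaternion is the
first generator, the theorem.
-/

open NumberField Matrix Polynomial

namespace Vale.Agent.P011.E6W.H196

open Vale.Agent.P011.MPQ hiding mat
open Vale.Agent.P011.D4 Vale.Agent.P011.D4.Oct Vale.Agent.P011.E6 Vale.Agent.P011.E6.Alb
open Vale.Agent.P011.E6I (MQ toMQ Mp S0 S1 S2 FixK cj cjE)
open Vale.Agent.P011.E6I.Fx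
open Vale.Agent.P011.E6W.H7 (sm smU sm_mul sm_one GK JK gk_top)
open Vale.Agent.P011.E6W.H684 (GKJ)

variable {k K : Type} [Field k] [NumberField k] [Field K] [NumberField K] [Algebra k K]
  {s : K ≃ₐ[k] K} {th : K} {kap : k}

/-- **The group over the quadratic extension, for the first generator.** -/
theorem ktop1 (hTI : ∀ (L : Type) [Field L] [NumberField L] [Algebra k L], H684.TIAll k L)
    (h2 : Module.finrank k K = 2) (hth : th * th = algebraMap k K kap)
    (hs : s th = -th) {a b c : kˣ} {p0 p1 p2 : k} {A B : Matrix (Fin 3) (Fin 3) k} {ε : k}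
    {κ₁ : Qt (up K a) (up K b)} {m : (MQ K a b)ˣ}
    (hirr : Irreducible (X ^ 3 + C p2 * X ^ 2 + C p1 * X + C p0 : k[X]))
    (hd : ¬ IsSquare (dsc3 p0 p1 p2)) (hdk : ¬ IsSquare (dsc3 p0 p1 p2 * kap))
    (ha1 : ¬ IsSquare (a : k)) (ha2 : ¬ IsSquare ((a : k) * kap))
    (ha3 : ¬ IsSquare ((a : k) * dsc3 p0 p1 p2))
    (ha4 : ¬ IsSquare ((a : k) * kap * dsc3 p0 p1 p2)) (hdiv : Division a b c)
    (hdef : ∀ τ : k →+* ℝ, τ a < 0 → τ b < 0 ∧ τ c < 0)
    (hcp : ∃ τ : k →+* ℝ, τ a < 0 ∧ 0 < τ kap)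
    (hA : Mp p0 p1 p2 * A = A * Mp p0 p1 p2) (hB : Mp p0 p1 p2 * B = B * Mp p0 p1 p2)
    (hm : (m : MQ K a b) = ph3 th a b A B) (hε : ε ≠ 0) (hκ : nrd κ₁ ≠ 0)
    (hdet : algebraMap k K (A * A - (kap * a) • (B * B)).det =
      algebraMap k K (ε ^ 2) * (nrd κ₁ * s (nrd κ₁)))
    (hsg : ∀ τ : k →+* ℝ, τ kap < 0 → τ a < 0 →
      0 < τ (ε * (A.det + kap * a * (A * B.adjugate).trace)))
    (N : Subgroup (GKJ s p0 p1 p2 c m (algebraMap k K ε • (star (qmap s κ₁) * κ₁))))
    (hN : N.index ≠ 0) : N = ⊤ := by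
  have hN2 : NeZero (2 : K) := ⟨two_ne_zero⟩
  have hk0 : kap ≠ 0 := fun h => hdk ⟨0, by rw [h]; ring⟩
  have hkap : ¬ IsSquare kap := kap_nsq hk0 hth hs
  have hss := s_s h2 hth hs hkap
  -- anisotropy over `K`
  have hab : Aniso (up K a) (up K b) := by
    obtain ⟨τ, h3, h4⟩ := hcp
    obtain ⟨τ', hτ'⟩ := exists_real h2 hth hkap h4
    refine D4Y.aniso_of_real τ' ?_ ?_
    · change τ' (algebraMap k K a) < 0
      rw [hτ']
      exact h3
    · change τ' (algebraMap k K b) < 0
      rw [hτ']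
      exact (hdef τ h3).1
  -- the norm of phi
  obtain ⟨n0, hn0⟩ : ∃ n0, n0 = A.det + kap * a * (A * B.adjugate).trace := ⟨_, rfl⟩
  obtain ⟨n1, hn1⟩ : ∃ n1, n1 = (A.adjugate * B).trace + kap * a * B.det := ⟨_, rfl⟩
  obtain ⟨ν, hν⟩ : ∃ ν, ν = n0 ^ 2 - kap * a * n1 ^ 2 := ⟨_, rfl⟩
  have hAB : A * B = B * A := comm_all hA.symm hB.symm
  have hdν : (A * A - (kap * a) • (B * B)).det = ν := by
    rw [det_normF _ hAB, hν, hn0, hn1]
  rw [hdν] at hdet
  rw [← hn0] at hsg
  have hν0 : ν ≠ 0 := by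
    intro h
    rw [h, map_zero] at hdet
    have h3 : algebraMap k K (ε ^ 2) ≠ 0 := (_root_.map_ne_zero _).2 (pow_ne_zero 2 hε)
    have h4 : s (nrd κ₁) ≠ 0 := (_root_.map_ne_zero s).2 hκ
    exact mul_ne_zero h3 (mul_ne_zero hκ h4) hdet.symm
  obtain ⟨Y0, Y1, T, q, hT, hq, e1, e2, e3⟩ := exists_yT h2 hth hs hk0 ha1 ha2
    (n0 := n0) (n1 := n1) hε hκ (by rw [← hν]; exact hdet) hsg
  obtain ⟨μ, hμ⟩ : ∃ μ : K, μ = algebraMap k K ε * nrd κ₁ := ⟨_, rfl⟩
  rw [← hμ] at e1
  have hμs : μ * s μ = algebraMap k K ν := by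
    rw [hdet, hμ, map_mul, s.commutes, map_pow]
    ring
  -- the multiplier
  obtain ⟨c0, hc0⟩ : ∃ c0 : K, c0 = Y0 * algebraMap k K n0 -
    algebraMap k K a * Y1 * algebraMap k K n1 * th := ⟨_, rfl⟩
  obtain ⟨c1, hc1⟩ : ∃ c1 : K, c1 = Y1 * algebraMap k K n0 - Y0 * algebraMap k K n1 * th :=
    ⟨_, rfl⟩
  have hcc : c0 ^ 2 - algebraMap k K a * c1 ^ 2 = μ * algebraMap k K (T * ν) := by
    rw [map_mul, hν, map_sub, map_mul, map_mul, map_pow, map_pow, hc0, hc1, ← hth]
    linear_combination (algebraMap k K n0 ^ 2 - th * th * algebraMap k K a *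
      algebraMap k K n1 ^ 2) * e1
  obtain ⟨X, hX⟩ : ∃ X : Matrix (Fin 3) (Fin 3) K, X = c0 • A.map (algebraMap k K) +
    (((up K a : Kˣ) : K) * c1) • (th • B.map (algebraMap k K)) := ⟨_, rfl⟩
  obtain ⟨Y, hY⟩ : ∃ Y : Matrix (Fin 3) (Fin 3) K, Y = c0 • (th • B.map (algebraMap k K)) +
    c1 • A.map (algebraMap k K) := ⟨_, rfl⟩
  have hr := norm_mu hth hA.symm hB.symm c0 c1 hX hY
  have hAm := map_comm (K := K) hA.symm
  have hBm := map_comm (K := K) hB.symm
  have hXM : X * Mp (algebraMap k K p0) (algebraMap k K p1) (algebraMap k K p2) =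
      Mp (algebraMap k K p0) (algebraMap k K p1) (algebraMap k K p2) * X := by
    rw [hX]
    exact comm_add (comm_smul _ hAm) (comm_smul _ (comm_smul _ hBm))
  have hYM : Y * Mp (algebraMap k K p0) (algebraMap k K p1) (algebraMap k K p2) =
      Mp (algebraMap k K p0) (algebraMap k K p1) (algebraMap k K p2) * Y := by
    rw [hY]
    exact comm_add (comm_smul _ (comm_smul _ hBm)) (comm_smul _ hAm)
  -- the conjugate multiplier
  have hAs : (A.map (algebraMap k K)).map s = A.map (algebraMap k K) := by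
    ext i j : 1
    exact s.commutes _
  have hBs : (B.map (algebraMap k K)).map s = B.map (algebraMap k K) := by
    ext i j : 1
    exact s.commutes _
  have hMs : (Mp (algebraMap k K p0) (algebraMap k K p1) (algebraMap k K p2)).map s =
      Mp (algebraMap k K p0) (algebraMap k K p1) (algebraMap k K p2) := by
    ext i j
    fin_cases i <;> fin_cases j <;> simp [Mp]
  have mmul : ∀ U V : Matrix (Fin 3) (Fin 3) K, (U * V).map s = U.map s * V.map s := fun U V =>
    Matrix.map_mul (f := (s : K →+* K))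
  have hXs : X.map s * Mp (algebraMap k K p0) (algebraMap k K p1) (algebraMap k K p2) =
      Mp (algebraMap k K p0) (algebraMap k K p1) (algebraMap k K p2) * X.map s := by
    have h := congrArg (fun U : Matrix (Fin 3) (Fin 3) K => U.map s) hXM
    simp only [mmul, hMs] at h
    exact h
  have hYs : Y.map s * Mp (algebraMap k K p0) (algebraMap k K p1) (algebraMap k K p2) =
      Mp (algebraMap k K p0) (algebraMap k K p1) (algebraMap k K p2) * Y.map s := by
    have h := congrArg (fun U : Matrix (Fin 3) (Fin 3) K => U.map s) hYM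
    simp only [mmul, hMs] at h
    exact h
  have ha_s : ((up K a : Kˣ) : K) = algebraMap k K a := rfl
  have hdr : (X.map s * X.map s - ((up K a : Kˣ) : K) • (Y.map s * Y.map s)).det =
      s ((X * X - ((up K a : Kˣ) : K) • (Y * Y)).det) := by
    have h3 : X.map s * X.map s - ((up K a : Kˣ) : K) • (Y.map s * Y.map s) =
        (X * X - ((up K a : Kˣ) : K) • (Y * Y)).map s := by
      rw [← mmul, ← mmul]
      ext i j : 1
      simp only [Matrix.map_apply, Matrix.sub_apply, Matrix.smul_apply, smul_eq_mul, map_sub,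
        map_mul, ha_s, s.commutes]
    rw [h3]
    exact (RingHom.map_det (s : K →+* K) _).symm
  have hdet3 : (X * X - ((up K a : Kˣ) : K) • (Y * Y)).det =
      (μ * algebraMap k K (T * ν)) ^ 3 * algebraMap k K ν := by
    rw [hr, Matrix.det_smul, Fintype.card_fin, hcc]
    congr 1
    rw [← hdν]
    exact (RingHom.map_det (algebraMap k K) _).symm
  have hμ0 : μ ≠ 0 := by
    rw [hμ]
    exact mul_ne_zero ((_root_.map_ne_zero _).2 hε) hκ
  have hTK : algebraMap k K (T * ν) ≠ 0 := (_root_.map_ne_zero _).2 (mul_ne_zero hT hν0)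
  have hνK : algebraMap k K ν ≠ 0 := (_root_.map_ne_zero _).2 hν0
  have hdr0 : (X.map s * X.map s - ((up K a : Kˣ) : K) • (Y.map s * Y.map s)).det ≠ 0 := by
    rw [hdr, hdet3]
    exact (_root_.map_ne_zero s).2 (mul_ne_zero (pow_ne_zero 3 (mul_ne_zero hμ0 hTK)) hνK)
  obtain ⟨M, hM⟩ := exists_unit_pm hXs hYs hdr0
  obtain ⟨M', hM'⟩ := exists_unit_pm (a := up K a) (b := up K b) (Y := -Y.map s) hXs
    (by rw [Matrix.neg_mul, Matrix.mul_neg, hYs])
    (by rw [neg_mul_neg]; exact hdr0)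
  -- the quaternion
  obtain ⟨t0, ht0⟩ : ∃ t0 : K, t0 = μ ^ 2 * algebraMap k K (T ^ 2 * ν ^ 2) := ⟨_, rfl⟩
  obtain ⟨x, hx⟩ : ∃ x : Qt (up K a) (up K b), x = (nrd κ₁)⁻¹ • (star κ₁ * (t0 • qup K q)) :=
    ⟨_, rfl⟩
  have hκx : κ₁ * x = t0 • qup K q := by
    have h3 : κ₁ * star κ₁ = nrd κ₁ • (1 : Qt (up K a) (up K b)) := by
      have h := D4X.H67.star_mul_self' (star κ₁)
      rw [star_star] at h
      rw [h]
      congr 1
      simp [nrd]
    rw [hx, mul_smul_comm, ← mul_assoc, h3, smul_mul_assoc, one_mul, smul_smul,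
      inv_mul_cancel₀ hκ, one_smul]
  have hnq : nrd (t0 • qup K q) = t0 ^ 2 * algebraMap k K (nrd q) := by
    simp only [nrd, QuaternionAlgebra.re_smul, QuaternionAlgebra.imI_smul,
      QuaternionAlgebra.imJ_smul, QuaternionAlgebra.imK_smul, smul_eq_mul]
    simp only [map_add, map_sub, map_mul, map_pow, qup]
    change _ ^ 2 - algebraMap k K a * _ - algebraMap k K b * _ +
      algebraMap k K a * algebraMap k K b * _ = _
    ring
  have hqK : algebraMap k K (nrd q) * (algebraMap k K ε * algebraMap k K T) = 1 := by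
    rw [← map_mul, ← map_mul, hq, map_one]
  have hnx : nrd x = (μ * algebraMap k K (T * ν)) ^ 3 * algebraMap k K ν := by
    have h3 := congrArg nrd hκx
    rw [nrd_mul, hnq] at h3
    apply mul_left_cancel₀ hκ
    rw [h3, ht0]
    apply mul_left_cancel₀ (mul_ne_zero ((_root_.map_ne_zero (algebraMap k K)).2 hε)
      ((_root_.map_ne_zero (algebraMap k K)).2 hT))
    simp only [map_mul, map_pow]
    rw [hμ]
    linear_combination ((algebraMap k K ε * nrd κ₁) ^ 4 * algebraMap k K T ^ 4 *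
      algebraMap k K ν ^ 4) * hqK
  have hnxs : nrd (qmap s x) =
      (X.map s * X.map s - ((up K a : Kˣ) : K) • (Y.map s * Y.map s)).det := by
    rw [nrd_qmap, hnx, hdr, hdet3]
  obtain ⟨κ, hκu⟩ := exists_unit_qt (x := qmap s x) (by rw [hnxs]; exact hdr0)
  have hMult : Mult (algebraMap k K p0) (algebraMap k K p1) (algebraMap k K p2) (X.map s)
      (Y.map s) (up K a) (up K b) M M' κ :=
    { hX := hXs
      hY := hYs
      hM := hM
      hM' := hM'
      hr := hdr0
      hκ := by rw [hκu, hnxs] }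
  -- the new data
  obtain ⟨A', hA'⟩ : ∃ A' : Matrix (Fin 3) (Fin 3) k, A' = (T * ν) • (n0 • cP (kap * a) A B -
    (kap * a * n1) • cR (kap * a) A B) := ⟨_, rfl⟩
  obtain ⟨B', hB'⟩ : ∃ B' : Matrix (Fin 3) (Fin 3) k, B' = (T * ν) • (n0 • cR (kap * a) A B -
    n1 • cP (kap * a) A B) := ⟨_, rfl⟩
  obtain ⟨f1, f2⟩ := det_final (kap * a) T ν n0 n1 hn0 hn1 hν hA' hB'
  have hcP : cP (kap * a) A B * Mp p0 p1 p2 = Mp p0 p1 p2 * cP (kap * a) A B := by
    have hA0 := hA.symm
    have hB0 := hB.symm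
    exact comm_add (comm_mul (comm_add (comm_mul hA0 hA0) (comm_smul _ (comm_mul hB0 hB0))) hA0)
      (comm_smul _ (comm_mul (comm_add (comm_mul hA0 hB0) (comm_mul hB0 hA0)) hB0))
  have hcR : cR (kap * a) A B * Mp p0 p1 p2 = Mp p0 p1 p2 * cR (kap * a) A B := by
    have hA0 := hA.symm
    have hB0 := hB.symm
    exact comm_add (comm_mul (comm_add (comm_mul hA0 hA0) (comm_smul _ (comm_mul hB0 hB0))) hB0)
      (comm_mul (comm_add (comm_mul hA0 hB0) (comm_mul hB0 hA0)) hA0)
  have hA'M : Mp p0 p1 p2 * A' = A' * Mp p0 p1 p2 := by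
    rw [hA']
    exact (comm_smul _ (comm_sub (comm_smul _ hcP) (comm_smul _ hcR))).symm
  have hB'M : Mp p0 p1 p2 * B' = B' * Mp p0 p1 p2 := by
    rw [hB']
    exact (comm_smul _ (comm_sub (comm_smul _ hcR) (comm_smul _ hcP))).symm
  -- the new matrix
  have hsc0 : s c0 = s Y0 * algebraMap k K n0 + algebraMap k K a * s Y1 *
      algebraMap k K n1 * th := by
    rw [hc0]
    simp only [map_sub, map_mul, s.commutes, hs]
    ring
  have hsc1 : s c1 = s Y1 * algebraMap k K n0 + s Y0 * algebraMap k K n1 * th := by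
    rw [hc1]
    simp only [map_sub, map_mul, s.commutes, hs]
    ring
  have g1 : s c0 * c0 - algebraMap k K a * (s c1 * c1) = algebraMap k K (T * ν * n0) := by
    rw [hsc0, hsc1, hc0, hc1]
    simp only [map_mul] at e2 e3 ⊢
    rw [hν, map_sub, map_mul, map_mul, map_pow, map_pow, ← hth]
    linear_combination (algebraMap k K n0 ^ 2 + algebraMap k K a * algebraMap k K n1 ^ 2 *
      th ^ 2) * e2 - (2 * algebraMap k K a * algebraMap k K n0 * algebraMap k K n1 * th) * e3
  have g2 : s c0 * c1 - s c1 * c0 = -(th * algebraMap k K (T * ν * n1)) := by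
    rw [hsc0, hsc1, hc0, hc1]
    simp only [map_mul] at e2 e3 ⊢
    rw [hν, map_sub, map_mul, map_mul, map_pow, map_pow, ← hth]
    linear_combination (algebraMap k K n0 ^ 2 + algebraMap k K a * algebraMap k K n1 ^ 2 *
      th ^ 2) * e3 - (2 * algebraMap k K n0 * algebraMap k K n1 * th) * e2
  have hMs' : (H64.umap s M : MQ K a b) = pm (up K a) (up K b) X Y := by
    rw [H64.umap_val, hM, map_pm]
    have h3 : ∀ U : Matrix (Fin 3) (Fin 3) K, (U.map s).map s = U := fun U => by
      ext i j : 1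
      exact hss _
    rw [h3, h3]
  have hXY : pm (up K a) (up K b) X Y = pm (up K a) (up K b) (c0 • 1) (c1 • 1) *
      ph3 th a b A B := by
    rw [ph3, pm_scalar_mul, hX, hY]
  have hXYs : pm (up K a) (up K b) (X.map s) (-Y.map s) =
      pm (up K a) (up K b) (s c0 • 1) ((-s c1) • 1) * ph3 th a b A B := by
    rw [ph3, pm_scalar_mul]
    congr 1
    · ext i j : 1
      rw [hX]
      simp only [Matrix.map_apply, Matrix.add_apply, Matrix.smul_apply, smul_eq_mul, map_add,
        map_mul, ha_s, s.commutes, hs]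
      ring
    · ext i j : 1
      rw [hY]
      simp only [Matrix.map_apply, Matrix.add_apply, Matrix.neg_apply, Matrix.smul_apply,
        smul_eq_mul, map_add, map_mul, s.commutes, hs]
      ring
  have hm' : ((M' * m * H64.umap s M : (MQ K a b)ˣ) : MQ K a b) = ph3 th a b A' B' := by
    rw [Units.val_mul, Units.val_mul, hM', hMs', hm, hXY, hXYs]
    have h3 : pm (up K a) (up K b) (s c0 • 1) ((-s c1) • 1) * ph3 th a b A B * ph3 th a b A B *
        (pm (up K a) (up K b) (c0 • 1) (c1 • 1) * ph3 th a b A B) =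
        pm (up K a) (up K b) (s c0 • 1) ((-s c1) • 1) * pm (up K a) (up K b) (c0 • 1) (c1 • 1) *
        (ph3 th a b A B * ph3 th a b A B * ph3 th a b A B) := by
      have h4 : ph3 th a b A B * pm (up K a) (up K b) (c0 • 1) (c1 • 1) =
          pm (up K a) (up K b) (c0 • 1) (c1 • 1) * ph3 th a b A B := mul_pm_scalar _ _ _ _
      simp only [Matrix.mul_assoc]
      rw [← Matrix.mul_assoc (ph3 th a b A B) (pm (up K a) (up K b) (c0 • 1) (c1 • 1)), h4,
        Matrix.mul_assoc, ← Matrix.mul_assoc (ph3 th a b A B)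
        (pm (up K a) (up K b) (c0 • 1) (c1 • 1)), h4, Matrix.mul_assoc]
    rw [h3, ph3_mul hth, ph3_mul hth]
    change _ * ph3 th a b (cP (kap * a) A B) (cR (kap * a) A B) = _
    have h5 : pm (up K a) (up K b) (s c0 • 1) ((-s c1) • 1) *
        pm (up K a) (up K b) (c0 • 1) (c1 • 1) = pm (up K a) (up K b)
        (algebraMap k K (T * ν * n0) • 1) ((-(th * algebraMap k K (T * ν * n1))) • 1) := by
      rw [pm_scalar_mul, ← g1, ← g2, ha_s]
      congr 1
      · rw [smul_smul, smul_smul, ← add_smul]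
        congr 1
        ring
      · rw [smul_smul, smul_smul, ← add_smul]
        congr 1
        ring
    rw [h5, scalar_ph3 hth]
    have h6 : (T * ν * n0) • cP (kap * a) A B - (kap * a * (T * ν * n1)) • cR (kap * a) A B =
        A' := by
      rw [hA', smul_sub, smul_smul, smul_smul]
      congr 2
      ring
    have h7 : (T * ν * n0) • cR (kap * a) A B - (T * ν * n1) • cP (kap * a) A B = B' := by
      rw [hB', smul_sub, smul_smul, smul_smul]
    rw [h6, h7]
  -- the new quaternion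
  have hκ' : star (κ : Qt (up K a) (up K b)) * (algebraMap k K ε • (star (qmap s κ₁) * κ₁)) *
      qmap s (κ : Qt (up K a) (up K b)) =
      algebraMap K (Qt (up K a) (up K b)) (algebraMap k K (T ^ 3 * ν ^ 6)) := by
    have h3 : qmap s (qmap s x) = x := by
      apply QuaternionAlgebra.ext <;> exact hss _
    rw [hκu, h3]
    have h4 : star (qmap s x) * (algebraMap k K ε • (star (qmap s κ₁) * κ₁)) * x =
        algebraMap k K ε • (star (qmap s (κ₁ * x)) * (κ₁ * x)) := by
      rw [qmap_mul, star_mul, mul_smul_comm, smul_mul_assoc]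
      simp only [mul_assoc]
    rw [h4, hκx, qmap_smul, qmap_qup, QuaternionAlgebra.star_smul, smul_mul_smul_comm,
      D4X.H67.star_mul_self', nrd_qup', smul_smul, smul_smul,
      Algebra.algebraMap_eq_smul_one (R := K) (A := Qt (up K a) (up K b))]
    congr 1
    rw [ht0]
    simp only [map_mul, map_pow, s.commutes]
    have h5 : μ ^ 2 * s μ ^ 2 = algebraMap k K ν ^ 2 := by rw [← hμs]; ring
    linear_combination (algebraMap k K ε * algebraMap k K T ^ 4 * algebraMap k K ν ^ 4 *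
      algebraMap k K (nrd q)) * h5 + (algebraMap k K T ^ 3 * algebraMap k K ν ^ 6) * hqK
  refine top_conj hab hMult m _ ?_ N hN
  rw [hκ']
  intro N' hN'
  have hn : T ^ 3 * ν ^ 6 ≠ 0 := mul_ne_zero (pow_ne_zero 3 hT) (pow_ne_zero 6 hν0)
  exact gk_top hTI h2 hth hs hirr hd hdk ha1 ha2 ha3 ha4 hdiv hdef hcp hA'M hB'M
    (n := Units.mk0 _ hn) f1 f2 (m := M' * m * H64.umap s M)
    (fun i j => by rw [hm']; rfl) N' hN'

end Vale.Agent.P011.E6W.H196
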