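import Vale.Agent.P011.E6W.H196.KTa
import Vale.Agent.P011.E6W.H196.KTg

/-!
Block E6W, the group over the quadratic extension: the theorem.
-/

open NumberField Matrix Polynomial

namespace Vale.Agent.P011.E6W.H196

open Vale.Agent.P011.MPQ hiding mat
open Vale.Agent.P011.D4 Vale.Agent.P011.D4.Oct Vale.Agent.P011.E6 Vale.Agent.P011.E6.Alb
open Vale.Agent.P011.E6I (MQ toMQ Mp S0 S1 S2 FixK)
open Vale.Agent.P011.E6W.H684 (GKJ KTop)

section conj

variable {k K : Type} [Field k] [Field K] [Algebra k K] {s : K ≃ₐ[k] K} {a b c a' b' : kˣ}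
  {Φ : Qt (up K a') (up K b') ≃ₐ[K] Qt (up K a) (up K b)}
  {Ψ : AlbL K a' b' c ≃ₗ[K] AlbL K a b c}

/-- The groups of the two models correspond. -/
theorem gkj_iso (hΦ : QIso Φ) (hΨ : ∀ x, Ψ x = ⟨x.d1, x.d2, x.d3, ⟨Φ x.x1.fst, Φ x.x1.snd⟩,
    ⟨Φ x.x2.fst, Φ x.x2.snd⟩, ⟨Φ x.x3.fst, Φ x.x3.snd⟩⟩)
    (hc : ∀ x, cub (Ψ x) = cub x) (hs : ∀ x, Ψ (amap s x) = amap s (Ψ x))
    (hF : ∀ R : Matrix (Fin 3) (Fin 3) K, Ψ (ofF R) = ofF R) (p0 p1 p2 : k) (m : (MQ K a' b')ˣ)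
    (κ : Qt (up K a') (up K b')) (g : AlbL K a' b' c ≃ₗ[K] AlbL K a' b' c) :
    g ∈ GKJ s p0 p1 p2 c m κ ↔ cE Ψ g ∈ GKJ s p0 p1 p2 c (uM Φ m) (Φ κ) := by
  have h1 : ∀ x, cE Ψ g (Ψ x) = Ψ (g x) := cE_apply Ψ g
  constructor
  · rintro ⟨⟨g1, g2, g3, g4⟩, g5⟩
    refine ⟨⟨fun x => ?_, ?_, ?_, ?_⟩, fun x => ?_⟩
    · obtain ⟨y, rfl⟩ := Ψ.surjective x
      rw [h1, hc, g1, hc]
    · rw [← hF, h1]
      exact congrArg Ψ g2
    · rw [← hF, h1]
      exact congrArg Ψ g3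
    · rw [← hF, h1]
      exact congrArg Ψ g4
    · obtain ⟨y, rfl⟩ := Ψ.surjective x
      rw [← hs, ← act_iso hΦ hΨ, h1, h1, ← hs, ← act_iso hΦ hΨ, g5]
  · rintro ⟨⟨g1, g2, g3, g4⟩, g5⟩
    rw [← hF, h1] at g2 g3 g4
    refine ⟨⟨fun x => ?_, Ψ.injective g2, Ψ.injective g3, Ψ.injective g4⟩, fun x => ?_⟩
    · have h := g1 (Ψ x)
      rwa [h1, hc, hc] at h
    · have h := g5 (Ψ x)
      rw [← hs, ← act_iso hΦ hΨ, h1, h1, ← hs, ← act_iso hΦ hΨ] at h
      exact Ψ.injective h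

end conj

/-- **The statement over the quadratic extension.** -/
theorem ktop (k K : Type) [Field k] [NumberField k] [Field K] [NumberField K] [Algebra k K]
    (hTI : ∀ (L : Type) [Field L] [NumberField L] [Algebra k L], H684.TIAll k L) :
    KTop k K := by
  intro s th kap a b c u w p0 p1 p2 A B ε κ₁ m h2 hth hs hirr hd hdk hu1 hu2 hu3 hu4 hw0 hww hdiv
    hdef hdc hcp hA hB hm hε hκ hdet hsg
  have hc2 : NeZero (2 : K) := ⟨two_ne_zero⟩
  have hab : Aniso a b := by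
    intro x hx
    have h := hdiv (⟨x, 0⟩ : Oct a b c) (by
      rw [Oct.norm, hx]
      simp [nrd])
    exact congrArg Oct.fst h
  have hw1 : w ≠ 0 := by
    intro h
    rw [h, mul_zero] at hww
    have h3 := congrArg QuaternionAlgebra.re hww
    simp at h3
    exact u.ne_zero h3.symm
  obtain ⟨u', b', j, hj0, hwu, hjj, hwj⟩ := D4.exists_pair hab hw0 hw1
  have huu : u' = u := by
    apply Units.ext
    have h3 := hwu.symm.trans hww
    have h4 := congrArg QuaternionAlgebra.re h3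
    simpa using h4
  subst huu
  have ht : Trip u' b' c (⟨w, 0⟩ : Oct a b c) ⟨j, 0⟩ gl :=
    trip_of_pair hw0 hj0 hww hjj hwj two_ne_zero
  -- the isomorphism of quaternion algebras
  have kw := qup_rel K hww
  have kj := qup_rel K hjj
  have kwj : qup K w * qup K j = -(qup K j * qup K w) := by
    rw [← qup_mul, hwj, qup_neg, qup_mul]
  have kw0 : (qup K w).re = 0 := by simp [hw0]
  have kj0 : (qup K j).re = 0 := by simp [hj0]
  obtain ⟨Φ, hΦ, hΦn⟩ := TG.exists_equiv (A := up K u') (B := up K b') kw0 kj0 kw kj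
    (by rw [kwj, neg_neg])
  have hphi : ∀ x, phi (qup K w) (qup K j) x = Φ x := fun x => (hΦ x).symm
  have hre : ((qup K w) * (qup K j)).re = 0 := by
    have h1 := congrArg QuaternionAlgebra.re kwj
    simp only [QuaternionAlgebra.re_mul, QuaternionAlgebra.re_neg, kw0, kj0] at h1 ⊢
    have h3 : (2 : K) * (((up K a : Kˣ) : K) * (qup K w).imI * (qup K j).imI +
      ((up K b : Kˣ) : K) * (qup K w).imJ * (qup K j).imJ -
      ((up K a : Kˣ) : K) * ((up K b : Kˣ) : K) * (qup K w).imK * (qup K j).imK) = 0 := by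
      linear_combination h1
    have h4 := (mul_eq_zero.1 h3).resolve_left two_ne_zero
    linear_combination h4
  have hQ : QIso Φ := by
    refine ⟨fun x => ?_, fun x => ?_⟩
    · rw [← hphi, ← hphi, phi_star kw0 kj0 kwj]
    · rw [hΦ]
      simp only [QuaternionAlgebra.re_add, QuaternionAlgebra.re_smul, QuaternionAlgebra.re_one,
        kw0, kj0, hre, smul_eq_mul, mul_one, mul_zero, add_zero]
  have hemb : ∀ x : OctL K u' b' c,
      emb (oup K (⟨w, 0⟩ : Oct a b c)) (oup K ⟨j, 0⟩) (oup K gl) x =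
        ⟨Φ x.fst, Φ x.snd⟩ := by
    intro x
    rw [oup_gl]
    have h1 : oup K (⟨w, 0⟩ : Oct a b c) = ⟨qup K w, 0⟩ := by ext1 <;> simp [oup]
    have h2 : oup K (⟨j, 0⟩ : Oct a b c) = ⟨qup K j, 0⟩ := by ext1 <;> simp [oup]
    rw [h1, h2, ← hphi, ← hphi]
    exact emb_pair x
  have hΨ : ∀ x : AlbL K u' b' c, tripA K ht x = ⟨x.d1, x.d2, x.d3, ⟨Φ x.x1.fst, Φ x.x1.snd⟩,
      ⟨Φ x.x2.fst, Φ x.x2.snd⟩, ⟨Φ x.x3.fst, Φ x.x3.snd⟩⟩ := by
    intro x
    rw [tripA_apply]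
    simp only [Alb.omapA, hemb]
  have hcub : ∀ x : AlbL K u' b' c, cub (tripA K ht x) = cub x := fun x =>
    Alb.cub_mapE (tripO_mul ht) x
  have hsm : ∀ x : AlbL K u' b' c, tripA K ht (amap s x) = amap s (tripA K ht x) :=
    (isCoord_tripA (g := fun _ => 1) s ht).real
  have hF : ∀ R : Matrix (Fin 3) (Fin 3) K, tripA K ht (ofF R) = ofF R := fun R => by
    rw [tripA_apply, omapA_emb_ofF]
  -- the data of the other model
  obtain ⟨m', hm'⟩ : ∃ m' : (MQ K u' b')ˣ, uM Φ m' = m := by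
    refine ⟨uM Φ.symm m, ?_⟩
    apply Units.ext
    rw [uM_val, uM_val]
    ext i j : 1
    exact Φ.apply_symm_apply _
  obtain ⟨κ', hκ'⟩ : ∃ κ' : Qt (up K u') (up K b'), Φ κ' = κ₁ :=
    ⟨Φ.symm κ₁, Φ.apply_symm_apply _⟩
  have hmv : (m' : MQ K u' b') = ph3 th u' b' A B := by
    have h3 : (m' : MQ K u' b').map Φ = (ph3 th u' b' A B).map Φ := by
      have h4 : ((uM Φ m' : (MQ K a b)ˣ) : MQ K a b) = m := by rw [hm']
      rw [uM_val] at h4
      rw [h4]
      ext i j : 1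
      rw [hm, Matrix.map_apply, ph3, pm_apply, hΦ]
      simp only [Matrix.map_apply, Matrix.smul_apply, smul_eq_mul, zero_smul, add_zero]
      rw [Algebra.algebraMap_eq_smul_one (R := K) (A := Qt (up K a) (up K b))]
    ext i j : 1
    have h5 := congrFun (congrFun h3 i) j
    rw [Matrix.map_apply, Matrix.map_apply] at h5
    exact Φ.injective h5
  have hκn : nrd κ' = nrd κ₁ := by rw [← hκ', hΦn]
  have hdef' : ∀ τ : k →+* ℝ, τ u' < 0 → τ b' < 0 ∧ τ c < 0 := by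
    intro τ hτ
    obtain ⟨ha, hb⟩ := (hdef τ).1 hτ
    refine ⟨?_, hdc τ ha hb⟩
    -- the norm of `j` is positive
    have h3 : j * j = (-nrd j) • (1 : Qt a b) := by
      ext <;> simp [nrd, hj0] <;> ring
    have h4 : (b' : k) = -nrd j := by
      have h5 := congrArg QuaternionAlgebra.re (hjj.symm.trans h3)
      simpa using h5
    have hj1 : j ≠ 0 := by
      intro h
      rw [h, mul_zero] at hjj
      have h5 := congrArg QuaternionAlgebra.re hjj
      simp at h5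
      exact b'.ne_zero h5.symm
    have h5 : τ (nrd j) ≠ 0 := by
      rw [Ne, map_eq_zero]
      exact fun h => hj1 (hab j h)
    have h6 : 0 ≤ τ (nrd j) := by
      have h7 : τ (nrd j) = τ j.re ^ 2 + (-τ a) * τ j.imI ^ 2 + (-τ b) * τ j.imJ ^ 2 +
          τ a * τ b * τ j.imK ^ 2 := by
        simp only [nrd, map_add, map_sub, map_mul, map_pow]
        ring
      rw [h7]
      have := mul_pos_of_neg_of_neg ha hb
      have : 0 ≤ -τ a := by linarith
      have : 0 ≤ -τ b := by linarith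
      positivity
    rw [h4, map_neg]
    have h7 := lt_of_le_of_ne h6 (Ne.symm h5)
    linarith
  have hdiv' : Division u' b' c := by
    intro x hx
    obtain ⟨T, hT1, hT2, hT3, hT4⟩ := exists_emb ht
    have h := hdiv (T x) (by rw [hT4, hx])
    exact (map_eq_zero_iff T T.injective).1 h
  have hκe : Φ (algebraMap k K ε • (star (qmap s κ') * κ')) =
      algebraMap k K ε • (star (qmap s κ₁) * κ₁) := by
    rw [map_smul, map_mul, hQ.st, hκ']
    have h3 : Φ (qmap s κ') = qmap s (Φ κ') := by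
      rw [← hphi, ← hphi, qmap_phi]
    rw [h3, hκ']
  rw [← hκe, ← hm']
  intro N hN
  refine top_of_equiv (cE (tripA K ht)) (fun g => gkj_iso hQ hΨ hcub hsm hF p0 p1 p2 m' _ g)
    (fun N' hN' => ?_) N hN
  exact ktop1 hTI h2 hth hs hirr hd hdk hu1 hu2 hu3 hu4 hdiv' hdef' hcp hA hB hmv hε
    (by rw [hκn]; exact hκ) (by rw [hκn]; exact hdet) hsg N' hN'

end Vale.Agent.P011.E6W.H196
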