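import Mathlib

/-!
Block E6W (B2): only finitely many square classes become squares in a finite extension.
-/

namespace Vale.Agent.P011.E6W.H196

variable {k M : Type} [Field k] [Field M] [CharZero k] [Algebra k M]

omit [CharZero k] in
open Polynomial in
/-- The trace of a square root of a nonsquare. -/
theorem trace_sqrt [FiniteDimensional k M] {z : M} {c : k} (hz : z * z = algebraMap k M c)
    (hc : ¬ IsSquare c) : Algebra.trace k M z = 0 := by
  have hirr : Irreducible (X ^ 2 - C c : k[X]) := by
    rw [X_pow_sub_C_irreducible_iff_of_prime Nat.prime_two]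
    intro b hb
    exact hc ⟨b, by rw [← hb, pow_two]⟩
  have hmon : (X ^ 2 - C c : k[X]).Monic := monic_X_pow_sub_C c two_ne_zero
  have hroot : aeval z (X ^ 2 - C c : k[X]) = 0 := by
    simp [pow_two, hz]
  have hmin : minpoly k z = X ^ 2 - C c :=
    (minpoly.eq_of_irreducible_of_monic hirr hroot hmon).symm
  rw [trace_eq_finrank_mul_minpoly_nextCoeff k z, hmin]
  have h1 : (X ^ 2 - C c : k[X]).nextCoeff = 0 := by
    rw [nextCoeff_of_natDegree_pos (by rw [natDegree_X_pow_sub_C]; norm_num),
      natDegree_X_pow_sub_C]
    simp
  rw [h1]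
  simp

/-- Square roots of elements of different classes are linearly independent. -/
theorem linInd_sqrt [FiniteDimensional k M] {ι : Type} (x : ι → k) (y : ι → M)
    (hx : ∀ i, x i ≠ 0) (hy : ∀ i, y i * y i = algebraMap k M (x i))
    (hne : ∀ i j, i ≠ j → ¬ IsSquare (x i * x j)) : LinearIndependent k y := by
  refine LinearMap.BilinForm.linearIndependent_of_iIsOrtho (B := Algebra.traceForm k M) ?_ ?_
  · intro i j hij
    change Algebra.traceForm k M (y i) (y j) = 0
    rw [Algebra.traceForm_apply]
    refine trace_sqrt (c := x i * x j) ?_ (hne i j hij)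
    rw [map_mul, ← hy i, ← hy j]
    ring
  · intro i h
    have h1 : Algebra.traceForm k M (y i) (y i) = 0 := h
    rw [Algebra.traceForm_apply, hy i, Algebra.trace_algebraMap, nsmul_eq_mul] at h1
    rcases mul_eq_zero.1 h1 with h2 | h2
    · have h3 : Module.finrank k M ≠ 0 := Module.finrank_pos.ne'
      exact h3 (Nat.cast_eq_zero.1 h2)
    · exact hx i h2

/-- Only finitely many square classes become squares in a finite extension. -/
theorem exists_classes [FiniteDimensional k M] : ∃ (n : ℕ) (t : Fin n → kˣ),
    (∀ i, ¬ IsSquare (t i : k)) ∧ ∀ u : kˣ, ¬ IsSquare (u : k) →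
      IsSquare (algebraMap k M (u : k)) → ∃ i, IsSquare ((u : k) * t i) := by
  classical
  by_contra hcon
  push Not at hcon
  -- long families of nonsquares of different classes
  have key : ∀ n : ℕ, ∃ t : Fin n → kˣ, (∀ i, ¬ IsSquare (t i : k)) ∧
      (∀ i, IsSquare (algebraMap k M (t i : k))) ∧
      ∀ i j, i ≠ j → ¬ IsSquare ((t i : k) * t j) := by
    intro n
    induction n with
    | zero => exact ⟨fun i => i.elim0, fun i => i.elim0, fun i => i.elim0, fun i => i.elim0⟩
    | succ n ih =>
      obtain ⟨t, h1, h2, h3⟩ := ih
      obtain ⟨u, hu1, hu2, hu3⟩ := hcon n t h1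
      refine ⟨Fin.cons u t, ?_, ?_, ?_⟩
      · intro i
        refine Fin.cases ?_ (fun i => ?_) i
        · simpa using hu1
        · simpa using h1 i
      · intro i
        refine Fin.cases ?_ (fun i => ?_) i
        · simpa using hu2
        · simpa using h2 i
      · intro i j
        refine Fin.cases (Fin.cases ?_ (fun j => ?_) j) (fun i => Fin.cases ?_ (fun j => ?_) j) i
        · intro h; exact absurd rfl h
        · intro _
          simpa using hu3 j
        · intro _
          rw [mul_comm]
          simpa using hu3 i
        · intro h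
          have h' : i ≠ j := fun e => h (by rw [e])
          simpa using h3 i j h'
  obtain ⟨t, -, h2, h3⟩ := key (Module.finrank k M + 1)
  choose y hy using h2
  have hli := linInd_sqrt (M := M) (fun i => (t i : k)) y (fun i => (t i).ne_zero)
    (fun i => (hy i).symm) h3
  have h4 := hli.fintype_card_le_finrank
  rw [Fintype.card_fin] at h4
  omega

end Vale.Agent.P011.E6W.H196
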