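import Vale.Agent.P011.D4Y.H64.Even
import Vale.Agent.P011.E6W.H196.KumFin

/-!
Block E6W (B2): a common slot in the base field of a quaternion algebra over the base field and of
a quaternion algebra over a cubic extension.
-/

open NumberField IsDedekindDomain

namespace Vale.Agent.P011.E6W.H196

open Vale.Agent.P011.Arith Vale.Agent.P011.MPQ Vale.Agent.P011.D4 Vale.Agent.P011.D4X
  Vale.Agent.P011.D4Y

section loc

variable {F : Type} [Field F] [NumberField F]

/-- The unit attached to an unramified quadratic extension is not a local square. -/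
theorem notMem_of_adm {v : HeightOneSpectrum (𝓞 F)} {c : F} (hc : AdmC (v.valuation F) c) :
    ∃ u : Fˣ, (u : F) = 1 + 4 * c ∧ u ∉ LS (v.valuation F) := by
  have h2 : (2 : F) ≠ 0 := two_ne_zero
  have hwu : v.valuation F (1 + 4 * c) = 1 := by
    have h := hc.norm_eq h2 0 1
    have e : (0 : F) ^ 2 - (1 + 4 * c) * 1 ^ 2 = -(1 + 4 * c) := by ring
    rw [e, Valuation.map_neg] at h
    rw [h, zero_sub, Valuation.map_neg, map_one, mul_one, max_eq_left (val_two_le _), one_pow]
  have hu0 : (1 + 4 * c : F) ≠ 0 := by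
    intro h
    rw [h, map_zero] at hwu
    exact zero_ne_one hwu
  refine ⟨Units.mk0 _ hu0, rfl, ?_⟩
  rintro ⟨y, hy⟩
  rw [Units.val_mk0] at hy
  have hy0 : (y : F) ≠ 0 := y.ne_zero
  have hwy0 : v.valuation F (y : F) ≠ 0 := (Valuation.ne_zero_iff _).mpr hy0
  have h1 := (v.valuation F).map_one_add_of_lt (x := (1 + 4 * c) / (y : F) ^ 2 - 1)
    (lt_of_lt_of_le hy (val_four_le _))
  rw [add_sub_cancel, map_div₀, hwu, map_pow] at h1
  have hwy : v.valuation F (y : F) = 1 := by
    rw [div_eq_one_iff_eq (pow_ne_zero 2 hwy0)] at h1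
    exact (pow_eq_one_iff_of_nonneg zero_le two_ne_zero).mp h1.symm
  have h3 := hc.norm_eq h2 (y : F) 1
  have e2 : (1 + 4 * c) / (y : F) ^ 2 - 1 = -(((y : F) ^ 2 - (1 + 4 * c) * 1 ^ 2) / (y : F) ^ 2) := by
    field_simp
    ring
  rw [e2, Valuation.map_neg, map_div₀, h3, map_pow, hwy, one_pow, div_one] at hy
  have h4 : v.valuation F (2 * 1 : F) ^ 2 ≤ max (v.valuation F ((y : F) - 1))
      (v.valuation F (2 * 1)) ^ 2 := pow_le_pow_left' (le_max_right _ _) 2
  rw [val_four_eq, mul_one] at hy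
  rw [mul_one] at h4
  exact absurd (lt_of_le_of_lt h4 hy) (lt_irrefl _)

/-- The elements of odd valuation are not local squares. -/
theorem notMem_of_odd {v : HeightOneSpectrum (𝓞 F)} {x : Fˣ} {n : ℤ}
    (hx : v.valuation F (x : F) = WithZero.exp n) (hn : Odd n) : x ∉ LS (v.valuation F) := by
  rintro ⟨y, hy⟩
  have hy0 : v.valuation F (y : F) ≠ 0 := (Valuation.ne_zero_iff _).mpr y.ne_zero
  obtain ⟨m, hm⟩ := Sch.exp_of_ne_zero hy0
  have h1 : v.valuation F ((x : F) / (y : F) ^ 2) = 1 := by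
    have := (v.valuation F).map_one_add_of_lt (x := (x : F) / (y : F) ^ 2 - 1)
      (lt_of_lt_of_le hy (val_four_le _))
    rwa [add_sub_cancel] at this
  rw [map_div₀, map_pow, hx, hm, div_eq_one_iff_eq (pow_ne_zero _ WithZero.exp_ne_zero),
    ← WithZero.exp_nsmul, WithZero.exp_inj] at h1
  obtain ⟨r, hr⟩ := hn
  simp at h1
  omega

end loc

variable {k L : Type} [Field k] [NumberField k] [Field L] [NumberField L] [Algebra k L]

/-- Some element of the base field is not a local square at a given prime of a cubic extension. -/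
theorem exists_up_notMem (h3 : Module.finrank k L = 3) {v : HeightOneSpectrum (𝓞 k)}
    {w : HeightOneSpectrum (𝓞 L)}
    (hw : w.asIdeal.comap (algebraMap (𝓞 k) (𝓞 L)) = v.asIdeal) :
    ∃ x : kˣ, up L x ∉ LS (w.valuation L) := by
  classical
  have hm := v.isMaximal
  have l1 : w.asIdeal.LiesOver v.asIdeal := ⟨hw.symm⟩
  have hsum := Ideal.sum_ramification_inertia (R := 𝓞 k) (𝓞 L) k L (p := v.asIdeal) v.ne_bot
  rw [h3] at hsum
  have m1 : w.asIdeal ∈ IsDedekindDomain.primesOverFinset v.asIdeal (𝓞 L) :=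
    (IsDedekindDomain.mem_primesOverFinset_iff v.ne_bot _).mpr ⟨w.isPrime, l1⟩
  have hle : v.asIdeal.ramificationIdx' w.asIdeal * v.asIdeal.inertiaDeg' w.asIdeal ≤ 3 := by
    rw [← hsum]
    exact Finset.single_le_sum (f := fun P : Ideal (𝓞 L) =>
      v.asIdeal.ramificationIdx' P * v.asIdeal.inertiaDeg' P) (fun P _ => Nat.zero_le _) m1
  have e1 : v.asIdeal.ramificationIdx' w.asIdeal ≠ 0 :=
    Ideal.IsDedekindDomain.ramificationIdx'_ne_zero_of_liesOver w.asIdeal v.ne_bot
  have f1 : v.asIdeal.inertiaDeg' w.asIdeal ≠ 0 := Ideal.inertiaDeg'_ne_zero _ _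
  rcases Nat.even_or_odd (v.asIdeal.ramificationIdx' w.asIdeal) with he | he
  · -- the residue fields are equal
    have hf : v.asIdeal.inertiaDeg' w.asIdeal = 1 := by
      obtain ⟨r, hr⟩ := he
      have h4 : 2 ≤ v.asIdeal.ramificationIdx' w.asIdeal := by omega
      have h5 : 2 * v.asIdeal.inertiaDeg' w.asIdeal ≤ 3 :=
        le_trans (Nat.mul_le_mul_right _ h4) hle
      omega
    obtain ⟨c, hc⟩ := exists_admC w
    obtain ⟨x, hx⟩ := exists_near_one hw hf hc.1
    have hc' : AdmC (w.valuation L) (algebraMap k L x) := by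
      refine hc.congr (lt_of_le_of_lt ?_ (show WithZero.exp (-1 : ℤ) < 1 by
        rw [← WithZero.exp_zero, WithZero.exp_lt_exp]; omega))
      rw [← Valuation.map_neg, neg_sub]
      exact hx
    obtain ⟨u, hu, huL⟩ := notMem_of_adm hc'
    have h0 : (1 + 4 * x : k) ≠ 0 := by
      intro h
      apply u.ne_zero
      rw [hu]
      have h6 := congrArg (algebraMap k L) h
      rwa [map_add, map_one, map_mul, map_ofNat, map_zero] at h6
    refine ⟨Units.mk0 _ h0, ?_⟩
    have e : up L (Units.mk0 _ h0) = u := by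
      apply Units.ext
      rw [hu]
      change algebraMap k L (1 + 4 * x) = _
      rw [map_add, map_one, map_mul, map_ofNat]
    rw [e]
    exact huL
  · obtain ⟨π, hπ⟩ := exists_exp v
    have hπ0 : π ≠ 0 := by
      rintro rfl
      rw [map_zero] at hπ
      exact WithZero.exp_ne_zero hπ.symm
    refine ⟨Units.mk0 π hπ0, ?_⟩
    have h7 : w.valuation L ((up L (Units.mk0 π hπ0) : Lˣ) : L) =
        WithZero.exp (v.asIdeal.ramificationIdx' w.asIdeal • (-1 : ℤ)) := by
      change w.valuation L (algebraMap k L π) = _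
      rw [← HeightOneSpectrum.valuation_liesOver L v w π, hπ, WithZero.exp_nsmul]
    refine notMem_of_odd h7 ?_
    obtain ⟨r, hr⟩ := he
    rw [hr]
    exact ⟨-(r : ℤ) - 1, by simp; ring⟩

/-- Some element of the base field is not a local square at all the places over a prime. -/
theorem exists_loc (h3 : Module.finrank k L = 3) (v : HeightOneSpectrum (𝓞 k)) :
    ∃ x : kˣ, x ∉ LS (v.valuation k) ∧ ∀ w : HeightOneSpectrum (𝓞 L),
      w.asIdeal.comap (algebraMap (𝓞 k) (𝓞 L)) = v.asIdeal → up L x ∉ LS (w.valuation L) := by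
  by_cases h : ∃ w2 : HeightOneSpectrum (𝓞 L),
      w2.asIdeal.comap (algebraMap (𝓞 k) (𝓞 L)) = v.asIdeal ∧ ¬ OddP w2 v
  · obtain ⟨w2, hw2, hne⟩ := h
    obtain ⟨x, hx⟩ := exists_up_notMem h3 hw2
    have hxv : x ∉ LS (v.valuation k) := fun h => hx (LS_map hw2 h)
    refine ⟨x, hxv, fun w hw => ?_⟩
    by_cases hww : w = w2
    · rw [hww]; exact hx
    · exact fun h => hxv (odd_of_other h3 hw hw2 hww hne x h)
  · push Not at h
    obtain ⟨g, hg1, hg2⟩ := exists_class v 1
    exact ⟨g, hg1, fun w hw hw' => hg1 (h w hw g hw')⟩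

/-- **B2**: a common slot. -/
theorem exists_slot {M : Type} [Field M] [NumberField M] [Algebra k M]
    (h3 : Module.finrank k L = 3) (a b : kˣ) (a' b' : Lˣ)
    (hre : ∀ P : L →+* ℝ, P a' < 0 → P b' < 0 →
      P (algebraMap k L a) < 0 ∧ P (algebraMap k L b) < 0) :
    ∃ u : kˣ, (∃ w : Qt a b, w.re = 0 ∧ w * w = (u : k) • 1) ∧
      (∃ w' : Qt a' b', w'.re = 0 ∧ w' * w' = algebraMap k L (u : k) • 1) ∧
      (∀ τ : k →+* ℝ, τ u < 0 ↔ τ a < 0 ∧ τ b < 0) ∧
      ∀ x : M, x * x ≠ algebraMap k M u := by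
  classical
  have _hfd : FiniteDimensional k M := Module.Finite.of_restrictScalars_finite ℚ k M
  obtain ⟨n, t, ht, htM⟩ := exists_classes (k := k) (M := M)
  -- the places
  choose below hbelow using fun w : HeightOneSpectrum (𝓞 L) => Sch.exists_below (F := k) w
  obtain ⟨S, hS⟩ : ∃ S : Set (HeightOneSpectrum (𝓞 k)), S = {v | Ram a b v} ∪
    below '' {w | Ram a' b' w} := ⟨_, rfl⟩
  have hSf : S.Finite := by
    rw [hS]
    exact (ram_finite _ _).union ((ram_finite _ _).image _)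
  choose v1 hv1S hv1 using fun i => exists_nonsplit (t i) (ht i) S hSf
  have hVf : (S ∪ Set.range v1).Finite := hSf.union (Set.finite_range v1)
  obtain ⟨v0, hv0⟩ : ∃ v0 : HeightOneSpectrum (𝓞 k), v0 ∉ S ∪ Set.range v1 := by
    obtain ⟨v⟩ := nonempty_prime (F := k)
    obtain ⟨g, hg, -⟩ := exists_class v (1 : kˣ)
    obtain ⟨v0, h1, -⟩ := exists_nonsplit g (fun h => hg (Sq_le_LS _ (mem_Sq_iff.mpr h)))
      (S ∪ Set.range v1) hVf
    exact ⟨v0, h1⟩
  choose x hx1 hx2 using exists_loc (k := k) (L := L) h3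
  obtain ⟨T, hT⟩ : ∃ T : Set (HeightOneSpectrum (𝓞 k)), T = S ∪ Set.range v1 ∪ {v0} := ⟨_, rfl⟩
  have hTf : T.Finite := by
    rw [hT]
    exact hVf.union (Set.finite_singleton _)
  obtain ⟨u, hu⟩ := weak_approx' hTf (Sum.elim (fun v => if v ∈ Set.range v1 then 1 else x v)
    (fun φ : k →+* ℝ => if φ a < 0 ∧ φ b < 0 then -1 else 1))
  have huv : ∀ v ∈ T, v ∉ Set.range v1 → u / x v ∈ LS (v.valuation k) := by
    intro v hv hv'
    have h := hu (Sum.inl v) (inl_mem_SP.mpr hv)
    simp only [Sum.elim_inl, if_neg hv'] at h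
    exact h
  have hu1 : ∀ i, u ∈ LS ((v1 i).valuation k) := by
    intro i
    have h := hu (Sum.inl (v1 i)) (inl_mem_SP.mpr (by rw [hT]; exact Or.inl (Or.inr ⟨i, rfl⟩)))
    simp only [Sum.elim_inl, if_pos (Set.mem_range_self i), div_one] at h
    exact h
  have hur : ∀ τ : k →+* ℝ, τ u < 0 ↔ τ a < 0 ∧ τ b < 0 := by
    intro τ
    have h := hu (Sum.inr τ) inr_mem_SP
    by_cases hτ : τ a < 0 ∧ τ b < 0
    · simp only [Sum.elim_inr, if_pos hτ] at h
      have h1 : 0 < τ ((u / -1 : kˣ) : k) := h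
      rw [Units.val_div_eq_div_val, Units.val_neg, Units.val_one, map_div₀, map_neg, map_one,
        div_neg, div_one] at h1
      exact ⟨fun _ => hτ, fun _ => by linarith⟩
    · simp only [Sum.elim_inr, if_neg hτ, div_one] at h
      have h1 : 0 < τ (u : k) := h
      exact ⟨fun h2 => absurd h1 (not_lt.2 h2.le), fun h2 => absurd h2 hτ⟩
  have hST : ∀ v ∈ S, v ∈ T ∧ v ∉ Set.range v1 := by
    intro v hv
    refine ⟨by rw [hT]; exact Or.inl (Or.inl hv), ?_⟩
    rintro ⟨i, rfl⟩
    exact hv1S i hv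
  have huN : ∀ v ∈ T, v ∉ Set.range v1 → u ∉ LS (v.valuation k) := by
    intro v hv hv' h
    have h1 := mul_mem (inv_mem (huv v hv hv')) h
    rw [inv_div, div_mul_cancel] at h1
    exact hx1 v h1
  have huW : ∀ w, Ram a' b' w → up L u ∉ LS (w.valuation L) := by
    intro w hw h
    obtain ⟨h1, h2⟩ := hST (below w) (by rw [hS]; exact Or.inr ⟨w, hw, rfl⟩)
    have h4 := LS_map (hbelow w) (huv _ h1 h2)
    have h5 := mul_mem (inv_mem h4) h
    rw [map_div, inv_div, div_mul_cancel] at h5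
    exact hx2 (below w) w (hbelow w) h5
  have hunsq : ¬ IsSquare (u : k) := by
    intro h
    have h1 : v0 ∉ Set.range v1 := fun h2 => hv0 (Or.inr h2)
    exact huN v0 (by rw [hT]; exact Or.inr rfl) h1 (Sq_le_LS _ (mem_Sq_iff.mpr h))
  refine ⟨u, ?_, ?_, hur, ?_⟩
  · obtain ⟨x, y, z, h⟩ := exists_pure_ne a b u (fun v hv => by
      obtain ⟨h1, h2⟩ := hST v (by rw [hS]; exact Or.inl hv)
      exact huN v h1 h2) (fun φ h1 h2 => (hur φ).2 ⟨h1, h2⟩)
    exact pure_of h
  · obtain ⟨x, y, z, h⟩ := exists_pure_ne a' b' (up L u) huW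
      (fun φ h1 h2 => (hur (φ.comp (algebraMap k L))).2 (hre φ h1 h2))
    exact pure_of h
  · intro y hy
    obtain ⟨i, hi⟩ := htM u hunsq ⟨y, hy.symm⟩
    apply hv1 i
    have h1 : u * t i ∈ LS ((v1 i).valuation k) := Sq_le_LS _ (mem_Sq_iff.mpr (by
      rw [Units.val_mul]; exact hi))
    exact (Subgroup.mul_mem_cancel_left _ (hu1 i)).1 h1

end Vale.Agent.P011.E6W.H196
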